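import Vale.Agent.P141.H769.Mom
import Vale.Agent.P141.PL.H318.Sys1

/-!
# P141, line W: MOM for a static function which is uniform on one dimensional cells

`O : ℤ → ℝ`, `J` a cell (a finite set of integers), `lft c J O` the lift of `O` cut to `J` under
the linear form `el c`.  Uniformity of `O` on `J` against the push-forwards of the product
functions on ONE cube is the uniformity of the lift on this cube.  The slices are taken in the
FIRST coordinate, the gauge lives on the last two.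
-/

namespace Vale.Agent.P141.H769

noncomputable section

open scoped BigOperators
open Vale.Agent.P141.H315
open Vale.Agent.P141.PL.H315 (cube3 mem_cube3 card_cube3 card_cube3_pos atm e12 e13 e23 wt wN Nm
  Tri avg avg_nonneg wt_eq)
open Vale.Agent.P141.PL.H318 (a1 dot_a1)
open Vale.Agent.P141.H550
open Vale.Agent.P141.PL (el)

/-- The lift of a function on the line cut to a cell. -/
def lft (c : ℤ × ℤ × ℤ) (J : Finset ℤ) (O : ℤ → ℝ) (p : ℤ × ℤ × ℤ) : ℝ :=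
  if el c p ∈ J then O (el c p) else 0

/-- Uniformity on the cell is uniformity of the cut lift on the cube. -/
theorem unif_lft {δ e : ℝ} {k : ℕ} {c q : ℤ × ℤ × ℤ} {J : Finset ℤ} {O : ℤ → ℝ}
    (h : ∀ u : Tri, |dot J O (a1 c k (q, u))| ≤ wt δ e (cube3 k q) u) :
    UnifBox δ e (PL.H315.iv k q.1) (PL.H315.iv k q.2.1) (PL.H315.iv k q.2.2) (lft c J O) := by
  refine unifBox_of_cube fun u => ?_
  have h1 := h u
  have h2 : dot J O (a1 c k (q, u)) = ∑ y ∈ cube3 k q, lft c J O y * atm u y := by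
    rw [dot_a1]
    refine Finset.sum_congr rfl fun y _ => ?_
    unfold lft
    split_ifs <;> simp
  have hc := card_cube3_pos k q
  rw [h2] at h1
  unfold avg
  rw [abs_mul, abs_of_nonneg (inv_nonneg.mpr hc.le)]
  rw [inv_mul_le_iff₀ hc]
  refine h1.trans (le_of_eq ?_)
  unfold wt wN
  ring

/-- The rotation of the coordinates. -/
theorem UnifBox.rot {δ e : ℝ} {A B C : Finset ℤ} {G : ℤ × ℤ × ℤ → ℝ}
    (h : UnifBox δ e A B C G) : UnifBox δ e B C A (fun q => G (q.2.2, q.1, q.2.1)) :=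
  (UnifBox.swap23 (UnifBox.swap12 h))

/-- The fourth moment of the slices in the first coordinate, gauge on the last two. -/
def mo4f (A B C : Finset ℤ) (a : ℤ → ℤ → ℝ) (G : ℤ × ℤ × ℤ → ℝ) : ℝ :=
  avg A fun z => avg B fun x => avg B fun c =>
    (avg C fun y => (a x y * G (z, x, y)) * (a c y * G (z, c, y))) ^ 2

/-- The second moment of the slices in the first coordinate. -/
def mo2f (A B C : Finset ℤ) (a : ℤ → ℤ → ℝ) (G : ℤ × ℤ × ℤ → ℝ) : ℝ :=
  avg A fun z => avg B fun x => avg C fun y => (a x y * G (z, x, y)) ^ 2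

theorem mo4f_eq (A B C : Finset ℤ) (a : ℤ → ℤ → ℝ) (G : ℤ × ℤ × ℤ → ℝ) :
    mo4f A B C a G = mo4 B C A a (fun q => G (q.2.2, q.1, q.2.1)) := rfl

theorem mo2f_eq (A B C : Finset ℤ) (a : ℤ → ℤ → ℝ) (G : ℤ × ℤ × ℤ → ℝ) :
    mo2f A B C a G = mo2 B C A a (fun q => G (q.2.2, q.1, q.2.1)) := rfl

/-- MOM4 for the slices in the first coordinate. -/
theorem mom4f {δ e K w n κ : ℝ} (hδ : 0 ≤ δ) (he0 : 0 ≤ e) (he1 : e ≤ 1) (hK : 0 ≤ K)
    (hw : 0 ≤ w) (hκ : 0 < κ)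
    {A B C : Finset ℤ} (hB : B.Nonempty) (hC : C.Nonempty) {G : ℤ × ℤ × ℤ → ℝ}
    (hU : UnifBox δ e A B C G) (a : ℤ → ℤ → ℝ)
    (ha : ∀ x ∈ B, ∀ y ∈ C, |a x y| ≤ w)
    (hn : (avg B fun x => avg C fun y => a x y ^ 2) ≤ n)
    (hM : ∀ z ∈ A, ∀ x ∈ B, ∀ y ∈ C, |a x y * G (z, x, y)| ≤ K) :
    mo4f A B C a G ≤ mT δ e (w * K ^ 3) κ * (n * mo2f A B C a G + κ) := by
  rw [mo4f_eq, mo2f_eq]
  exact mom4_lin hδ he0 he1 hK hw hκ hB hC (UnifBox.rot hU) a ha hn hM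

/-- The linear form is injective in the first coordinate: line averages of a lift. -/
theorem line_lft {k : ℕ} {c : ℤ × ℤ × ℤ} (hc : c.1 ≠ 0) (J : Finset ℤ) (O : ℤ → ℝ) (s x y : ℤ) :
    (avg (PL.H315.iv k s) fun z => lft c J O (z, x, y) ^ 2) ≤ (2 ^ k : ℝ)⁻¹ * dot J O O := by
  unfold avg
  rw [PL.H315.card_iv]
  push_cast
  refine mul_le_mul_of_nonneg_left ?_ (by positivity)
  have h1 : ∑ z ∈ PL.H315.iv k s, lft c J O (z, x, y) ^ 2 =
      ∑ z ∈ (PL.H315.iv k s).filter (fun z => el c (z, x, y) ∈ J),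
        O (el c (z, x, y)) * O (el c (z, x, y)) := by
    rw [Finset.sum_filter]
    refine Finset.sum_congr rfl fun z _ => ?_
    unfold lft
    split_ifs <;> ring
  rw [h1]
  have hinj : Set.InjOn (fun z : ℤ => el c (z, x, y))
      ((PL.H315.iv k s).filter (fun z => el c (z, x, y) ∈ J) : Finset ℤ) := by
    intro z _ z' _ hz
    simp only [el] at hz
    have h2 : c.1 * z = c.1 * z' := by linarith
    exact mul_left_cancel₀ hc h2
  rw [← Finset.sum_image (f := fun r => O r * O r) hinj]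
  unfold dot
  refine Finset.sum_le_sum_of_subset_of_nonneg ?_ fun _ _ _ => mul_self_nonneg _
  intro r hr
  rw [Finset.mem_image] at hr
  obtain ⟨z, hz, rfl⟩ := hr
  exact (Finset.mem_filter.mp hz).2

theorem mo2f_lft_le {k : ℕ} {c : ℤ × ℤ × ℤ} (hc : c.1 ≠ 0) (J : Finset ℤ) (O : ℤ → ℝ) (s : ℤ)
    {B C : Finset ℤ} (a : ℤ → ℤ → ℝ) {n E : ℝ}
    (hn : (avg B fun x => avg C fun y => a x y ^ 2) ≤ n)
    (hE : dot J O O ≤ E * 2 ^ k) (hE0 : 0 ≤ E) :
    mo2f (PL.H315.iv k s) B C a (lft c J O) ≤ n * E := by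
  rw [mo2f_eq]
  refine mo2_le a hn hE0 fun x _ y _ => ?_
  refine (line_lft hc J O s x y).trans ?_
  rw [inv_mul_le_iff₀ (by positivity)]
  linarith

/-- **MOM4 on a cell**: `O` is `δ`-uniform on the cell `J` against the cube of `q`, energy
`dot J O O ≤ E 2 ^ k`, gauge `a` on the last two coordinates with `avg a² ≤ n`. -/
theorem mom4_cell {δ e K w n κ E : ℝ} (hδ : 0 ≤ δ) (he0 : 0 ≤ e) (he1 : e ≤ 1) (hK : 0 ≤ K)
    (hw : 0 ≤ w) (hκ : 0 < κ) {k : ℕ} {c q : ℤ × ℤ × ℤ} (hc : c.1 ≠ 0) {J : Finset ℤ} {O : ℤ → ℝ}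
    (h : ∀ u : Tri, |dot J O (a1 c k (q, u))| ≤ wt δ e (cube3 k q) u) (a : ℤ → ℤ → ℝ)
    (ha : ∀ x ∈ PL.H315.iv k q.2.1, ∀ y ∈ PL.H315.iv k q.2.2, |a x y| ≤ w)
    (hn : (avg (PL.H315.iv k q.2.1) fun x => avg (PL.H315.iv k q.2.2) fun y => a x y ^ 2) ≤ n)
    (hO : ∀ r ∈ J, w * |O r| ≤ K) (hE : dot J O O ≤ E * 2 ^ k) (hE0 : 0 ≤ E) :
    mo4f (PL.H315.iv k q.1) (PL.H315.iv k q.2.1) (PL.H315.iv k q.2.2) a (lft c J O) ≤
      mT δ e (w * K ^ 3) κ * (n ^ 2 * E + κ) := by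
  have hn0 : 0 ≤ n := (avg_nonneg fun _ _ => avg_nonneg fun _ _ => sq_nonneg _).trans hn
  have h1 := mom4f (K := K) (w := w) (κ := κ) hδ he0 he1 hK hw hκ
    ⟨q.2.1, PL.H315.self_mem_iv k q.2.1⟩ ⟨q.2.2, PL.H315.self_mem_iv k q.2.2⟩ (unif_lft h) a ha hn
    (by
      intro z _ x hx y hy
      unfold lft
      split_ifs with hJ
      · rw [abs_mul]
        exact (mul_le_mul_of_nonneg_right (ha x hx y hy) (abs_nonneg _)).trans (hO _ hJ)
      · simpa using hK)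
  refine h1.trans ?_
  have h2 := mo2f_lft_le hc J O q.1 a hn hE hE0
  have h3 : 0 ≤ mT δ e (w * K ^ 3) κ := mT_nonneg (by positivity) hκ.le
  refine mul_le_mul_of_nonneg_left ?_ h3
  have h4 := mul_le_mul_of_nonneg_left h2 hn0
  have h5 : n * (n * E) = n ^ 2 * E := by ring
  rw [h5] at h4
  linarith

end

end Vale.Agent.P141.H769
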