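import Vale.Agent.P141.H573.MomP
import Vale.Agent.P141.H834.CntP
import Vale.Agent.P141.H944.BoxP
import Vale.Agent.P141.H958.S4c

/-!
# P141, squad EN: the moment inequality in the letters of the engine

* `s4_avg`: the number `s4 k k F n m` of the engine is the fourth moment of the block.
* `Mo4 K`: the moment inequality of squad S4 with the constant `K` (slices in the third variable).
* `UnifP.rot`, `LineB.rot`: rotation of the coordinates.
* `s4_slices`: sum over the slices in the FIRST coordinate, gauge on the last two.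
* `exists_cnt_f`: the counts for the slices in the first coordinate.
* `unifP_lft`, `lineB_lft`: lifts of functions cut to a cell.
-/

namespace Vale.Agent.P141.H769

noncomputable section

open scoped BigOperators
open Finset
open Vale.Agent.P141.H315
open Vale.Agent.P141.PL (iv ix)
open Vale.Agent.P141.PL.H315 (cube3 mem_cube3 card_cube3 card_cube3_pos atm e12 e13 e23 Tri avg
  avg_nonneg)
open Vale.Agent.P141.PL.H318 (a1)
open Vale.Agent.P141.H550 (avg_congr avg_mono avg_const avg_mul_left avg_mul_right avg_prod avg_comm)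
open Vale.Agent.P141.H922 (n2 n4 nN wP)
open Vale.Agent.P141.H834 (UnifP LineB gf cnt exists_cnt)
open Vale.Agent.P141.H958 (s4 s4_sum s4_swap)

/-- The two notations for dyadic intervals. -/
theorem iv_pt (k : ℕ) (x : ℤ) : PL.H315.iv k x = iv k (ix k x) := rfl

theorem ix_two_pow_mul (k : ℕ) (n : ℤ) : ix k (2 ^ k * n) = n := by
  unfold ix
  rw [Int.mul_ediv_cancel_left _ (by positivity)]

/-- The interval with index `n` contains the point `2 ^ k * n`. -/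
theorem iv_ix (k : ℕ) (n : ℤ) : iv k n = PL.H315.iv k (2 ^ k * n) := by
  rw [iv_pt, ix_two_pow_mul]

theorem card_ivi (k : ℕ) (n : ℤ) : ((iv k n).card : ℝ) = 2 ^ k := by
  rw [iv_ix, PL.H315.card_iv]
  push_cast
  rfl

theorem ivi_nonempty (k : ℕ) (n : ℤ) : (iv k n).Nonempty := by
  rw [iv_ix]
  exact ⟨_, PL.H315.self_mem_iv _ _⟩

theorem sum_eq_avg (k : ℕ) (n : ℤ) (f : ℤ → ℝ) : ∑ x ∈ iv k n, f x = 2 ^ k * avg (iv k n) f := by
  unfold avg
  rw [card_ivi]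
  field_simp

/-- **The fourth power of the S4 norm of a block is a fourth moment.** -/
theorem s4_avg (a b : ℕ) (F : ℤ → ℤ → ℝ) (n m : ℤ) :
    s4 a b F n m =
      avg (iv a n) fun x => avg (iv a n) fun c => (avg (iv b m) fun y => F x y * F c y) ^ 2 := by
  rw [s4_swap, s4_sum]
  simp only [sum_eq_avg, avg_mul_left, mul_pow]
  have h2 : (2 : ℝ) ^ a ≠ 0 := by positivity
  have h3 : (2 : ℝ) ^ b ≠ 0 := by positivity
  field_simp

theorem s4_g2 (k : ℕ) (F : ℤ → ℤ → ℝ) (n m : ℤ) :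
    s4 k k F n m = avg (iv k n) fun x => avg (iv k n) fun c => g2 (iv k m) F x c ^ 2 :=
  s4_avg k k F n m

/-- The moment inequality of squad S4 with the constant `K`. -/
def Mo4 (K : ℝ) : Prop := ∀ {A B C : Finset ℤ} {G : ℤ × ℤ × ℤ → ℝ} {δ e : ℝ}, 0 ≤ δ → 0 ≤ e →
  A.Nonempty → B.Nonempty → C.Nonempty → UnifP δ A B C G → LineB e A B C G → ∀ a : ℤ → ℤ → ℝ,
  mo4 A B C a G ≤ K * (δ ^ 2 * e * (n2 (A ×ˢ B) (gf a) ^ 2 * n4 (A ×ˢ B) (gf a) ^ 2))

/-! ### Rotation -/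

theorem n2_sw (A B : Finset ℤ) (f : ℤ × ℤ → ℝ) :
    n2 (A ×ˢ B) (fun q => f (q.2, q.1)) = n2 (B ×ˢ A) f := by
  unfold n2
  rw [avg_prod, avg_prod, avg_comm]

theorem n4_sw (A B : Finset ℤ) (f : ℤ × ℤ → ℝ) :
    n4 (A ×ˢ B) (fun q => f (q.2, q.1)) = n4 (B ×ˢ A) f := by
  unfold n4
  rw [avg_prod, avg_prod, avg_comm]

theorem nN_sw (A B : Finset ℤ) (f : ℤ × ℤ → ℝ) :
    nN (A ×ˢ B) (fun q => f (q.2, q.1)) = nN (B ×ˢ A) f := by
  unfold nN
  rw [n2_sw, n4_sw]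

theorem UnifP.swap12 {d : ℝ} {A B C : Finset ℤ} {G : ℤ × ℤ × ℤ → ℝ} (h : UnifP d A B C G) :
    UnifP d B A C (fun q => G (q.2.1, q.1, q.2.2)) := by
  intro u
  have h1 := h ((fun q => u.1 (q.2, q.1)), u.2.2, u.2.1)
  rw [nN_sw, n2_sw] at h1
  have e : (avg (A ×ˢ B ×ˢ C) fun q => G q *
      atm ((fun q => u.1 (q.2, q.1)), u.2.2, u.2.1) q) =
      avg (B ×ˢ A ×ˢ C) fun q => (fun q => G (q.2.1, q.1, q.2.2)) q * atm u q := by
    rw [avg_prod, avg_prod]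
    have e1 : ∀ x ∈ A, (avg (B ×ˢ C) fun q => G (x, q) *
        atm ((fun q => u.1 (q.2, q.1)), u.2.2, u.2.1) (x, q)) =
        avg B fun y => avg C fun z => G (x, y, z) * (u.1 (y, x) * u.2.2 (x, z) * u.2.1 (y, z)) :=
      fun x _ => by rw [avg_prod]; rfl
    have e2 : ∀ y ∈ B, (avg (A ×ˢ C) fun q => G (q.1, y, q.2) * atm u (y, q)) =
        avg A fun x => avg C fun z => G (x, y, z) * (u.1 (y, x) * u.2.1 (y, z) * u.2.2 (x, z)) :=
      fun y _ => by rw [avg_prod]; rfl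
    rw [avg_congr e1]
    refine Eq.trans ?_ (avg_congr e2).symm
    rw [avg_comm]
    refine avg_congr fun y _ => avg_congr fun x _ => avg_congr fun z _ => ?_
    ring
  rw [← e]
  refine h1.trans (le_of_eq ?_)
  ring

theorem UnifP.swap23 {d : ℝ} {A B C : Finset ℤ} {G : ℤ × ℤ × ℤ → ℝ} (h : UnifP d A B C G) :
    UnifP d A C B (fun q => G (q.1, q.2.2, q.2.1)) := by
  intro u
  have h1 := h (u.2.1, u.1, (fun q => u.2.2 (q.2, q.1)))
  rw [nN_sw, n2_sw] at h1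
  have e : (avg (A ×ˢ B ×ˢ C) fun q => G q *
      atm (u.2.1, u.1, (fun q => u.2.2 (q.2, q.1))) q) =
      avg (A ×ˢ C ×ˢ B) fun q => (fun q => G (q.1, q.2.2, q.2.1)) q * atm u q := by
    rw [avg_prod, avg_prod]
    refine avg_congr fun x _ => ?_
    rw [avg_prod, avg_prod, avg_comm]
    refine avg_congr fun z _ => avg_congr fun y _ => ?_
    simp only [atm, e12, e13, e23]
    ring
  rw [← e]
  refine h1.trans (le_of_eq ?_)
  ring

/-- The rotation of the coordinates: the first one becomes the last one. -/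
theorem UnifP.rot {d : ℝ} {A B C : Finset ℤ} {G : ℤ × ℤ × ℤ → ℝ} (h : UnifP d A B C G) :
    UnifP d B C A (fun q => G (q.2.2, q.1, q.2.1)) :=
  (UnifP.swap23 (UnifP.swap12 h))

theorem LineB.rot {e : ℝ} {A B C : Finset ℤ} {G : ℤ × ℤ × ℤ → ℝ} (h : LineB e A B C G) :
    LineB e B C A (fun q => G (q.2.2, q.1, q.2.1)) where
  l1 := fun y hy z hz => h.l2 z hz y hy
  l2 := fun x hx z hz => h.l3 z hz x hx
  l3 := fun x hx y hy => h.l1 x hx y hy

theorem LineB.mono {e e' : ℝ} (he : e ≤ e') {A B C : Finset ℤ} {G : ℤ × ℤ × ℤ → ℝ}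
    (h : LineB e A B C G) : LineB e' A B C G where
  l1 := fun y hy z hz => (h.l1 y hy z hz).trans he
  l2 := fun y hy z hz => (h.l2 y hy z hz).trans he
  l3 := fun y hy z hz => (h.l3 y hy z hz).trans he

/-- **Sum over the slices in the first coordinate of the fourth powers of the S4 norms.** -/
theorem s4_slices {K δ e : ℝ} (hK : Mo4 K) (hδ : 0 ≤ δ) (he : 0 ≤ e) {k : ℕ} {q0 n m : ℤ}
    {G : ℤ × ℤ × ℤ → ℝ} (hU : UnifP δ (iv k q0) (iv k n) (iv k m) G)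
    (hL : LineB e (iv k q0) (iv k n) (iv k m) G) (a : ℤ → ℤ → ℝ) :
    ∑ z ∈ iv k q0, s4 k k (fun x y => a x y * G (z, x, y)) n m ≤
      2 ^ k * (K * (δ ^ 2 * e * (n2 (iv k n ×ˢ iv k m) (gf a) ^ 2 *
        n4 (iv k n ×ˢ iv k m) (gf a) ^ 2))) := by
  rw [sum_eq_avg]
  refine mul_le_mul_of_nonneg_left ?_ (by positivity)
  have h1 := hK hδ he (ivi_nonempty k n) (ivi_nonempty k m) (ivi_nonempty k q0) (UnifP.rot hU)
    (LineB.rot hL) a
  refine le_trans (le_of_eq ?_) h1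
  unfold mo4
  refine avg_congr fun z _ => ?_
  rw [s4_g2]
  rfl

/-- The counts for the slices in the first coordinate. -/
theorem exists_cnt_f {δ e : ℝ} (hδ : 0 ≤ δ) (he : 0 ≤ e) {A B C : Finset ℤ}
    {G : ℤ × ℤ × ℤ → ℝ} (hB : B.Nonempty) (hC : C.Nonempty) (hU : UnifP δ A B C G)
    (hL : LineB e A B C G) (a : ℤ → ℤ → ℝ) :
    ∃ s : ℤ → B → ℝ, (∀ z i, 0 ≤ s z i) ∧
      (∀ z, ∑ i, s z i ^ 2 = avg B fun x => avg C fun y => (a x y * G (z, x, y)) ^ 2) ∧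
      (∀ z, ∑ i, s z i ^ 4 =
        avg B fun x => avg B fun c => g2 C (fun x y => a x y * G (z, x, y)) x c ^ 2) ∧
      (∀ σ, 0 < σ → σ ^ 2 * cnt A s σ ≤ e * n2 (B ×ˢ C) (gf a) ^ 2) ∧
      (∀ σ, 0 < σ → σ ^ 4 * cnt A s σ ≤
        23 * δ ^ 2 * e * (n2 (B ×ˢ C) (gf a) * n4 (B ×ˢ C) (gf a)) ^ 2) ∧
      ∀ h, 0 ≤ h → (∀ x ∈ B, ∀ y ∈ C, |a x y| ≤ h) → ∀ σ, 0 < σ →
        σ ^ 6 * cnt A s σ ≤ 486 * δ ^ 4 * e * h ^ 2 * n2 (B ×ˢ C) (gf a) ^ 4 :=
  exists_cnt hδ he hB hC (UnifP.rot hU) (LineB.rot hL) a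

/-! ### Lifts of functions cut to a cell -/

theorem unifP_lft {d : ℝ} {k : ℕ} {c q : ℤ × ℤ × ℤ} {J : Finset ℤ} {O : ℤ → ℝ}
    (h : ∀ u : Tri, |dot J O (a1 c k (q, u))| ≤ wP d (cube3 k q) u) :
    UnifP d (PL.H315.iv k q.1) (PL.H315.iv k q.2.1) (PL.H315.iv k q.2.2) (lft c J O) :=
  H944.unifB_lft h

theorem lineB_lft {k : ℕ} {c q : ℤ × ℤ × ℤ} (h1 : c.1 ≠ 0) (h2 : c.2.1 ≠ 0) (h3 : c.2.2 ≠ 0)
    {J : Finset ℤ} {O : ℤ → ℝ} {E : ℝ} (hE : dot J O O ≤ E * 2 ^ k) :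
    LineB E (PL.H315.iv k q.1) (PL.H315.iv k q.2.1) (PL.H315.iv k q.2.2) (lft c J O) where
  l1 := fun x _ y _ => H944.avg1_lft h1 hE _ x y
  l2 := fun x _ y _ => H944.avg2_lft h2 hE _ x y
  l3 := fun x _ y _ => H944.avg3_lft h3 hE _ x y

end

end Vale.Agent.P141.H769
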