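import Vale.Agent.P141.H48.ENdefs
import Vale.Agent.P141.H769.MomLft
import Vale.Agent.P141.H419.WpCalc

/-!
# P141, squad EN, module EN3: gauged paths and their own energies

* `pthSt` : `PthSt Λ`, the gauged slices form a packed path (constant `cP + 2`);
* `ownSt` : `OwnSt Λ` for `1 ≤ Λ`, the own energies summed over `x₀`.
-/

namespace Vale.Agent.P141.H769

open Finset Vale.Agent.P141.PL
open Vale.Agent.P141.H315 (dot)
open Vale.Agent.P141.PL.H315 (cube3 atm Tri A2 avg avg_nonneg)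
open Vale.Agent.P141.H550 (avg_congr avg_mono avg_const avg_mul_left avg_mul_right avg_prod avg_comm)
open Vale.Agent.P141.H922 (n2 n4 nN pw3 wP)
open Vale.Agent.P141.H958 (Aff PackQ s4 s4_nonneg pwr sum_Aff mem_Aff)
open Vale.Agent.P141.H736 (Path sqb sqQ sqb_nonneg)
open Vale.Agent.P141.H48

noncomputable section

open scoped Classical

/-! ### Stopping is constant on squares -/

theorem ptiv_congr {m : ℕ} {x x' : ℤ} (h : ix m x = ix m x') :
    Vale.Agent.P141.PL.H315.iv m x = Vale.Agent.P141.PL.H315.iv m x' := by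
  rw [iv_pt, iv_pt, h]

theorem ix_of_le {k m : ℕ} (hkm : k ≤ m) {x x' : ℤ} (h : ix k x = ix k x') :
    ix m x = ix m x' := by
  rw [← Nat.add_sub_cancel' hkm, ← ix_ix, ← ix_ix, h]

theorem bg_congr {Λ : ℝ} {a : ℤ × ℤ → ℝ} {K m : ℕ} (hm : m ≤ K) {x x' y y' : ℤ}
    (hx : ix m x = ix m x') (hy : ix m y = ix m y') : bg Λ a K m x y ↔ bg Λ a K m x' y' := by
  unfold bg A2 A4
  rw [ptiv_congr hx, ptiv_congr hy, ptiv_congr (ix_of_le hm hx), ptiv_congr (ix_of_le hm hy)]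

theorem sst_congr {Λ : ℝ} {a : ℤ × ℤ → ℝ} {K k : ℕ} {x x' y y' : ℤ}
    (hx : ix k x = ix k x') (hy : ix k y = ix k y') :
    sst Λ a K k x y ↔ sst Λ a K k x' y' := by
  unfold sst
  constructor
  · rintro ⟨m, h1, h2, h3⟩
    exact ⟨m, h1, h2, (bg_congr h2 (ix_of_le h1 hx) (ix_of_le h1 hy)).1 h3⟩
  · rintro ⟨m, h1, h2, h3⟩
    exact ⟨m, h1, h2, (bg_congr h2 (ix_of_le h1 hx) (ix_of_le h1 hy)).2 h3⟩

theorem sst_anti {Λ : ℝ} {a : ℤ × ℤ → ℝ} {K k l : ℕ} (hkl : k ≤ l) {x y : ℤ}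
    (h : sst Λ a K l x y) : sst Λ a K k x y := by
  obtain ⟨m, h1, h2, h3⟩ := h
  exact ⟨m, hkl.trans h1, h2, h3⟩

/-- the stopping squares, point form -/
def stpt (Λ : ℝ) (a : ℤ × ℤ → ℝ) (K k : ℕ) (x y : ℤ) : Prop :=
  sst Λ a K k x y ∧ ¬ sst Λ a K (k + 1) x y

theorem stpt_congr {Λ : ℝ} {a : ℤ × ℤ → ℝ} {K k : ℕ} {x x' y y' : ℤ}
    (hx : ix k x = ix k x') (hy : ix k y = ix k y') :
    stpt Λ a K k x y ↔ stpt Λ a K k x' y' := by
  unfold stpt
  rw [sst_congr hx hy, sst_congr (ix_of_le (Nat.le_succ k) hx) (ix_of_le (Nat.le_succ k) hy)]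

theorem stpt_disj {Λ : ℝ} {a : ℤ × ℤ → ℝ} {K : ℕ} {x y : ℤ} (k l : ℕ)
    (hk : stpt Λ a K k x y) (hl : stpt Λ a K l x y) : k = l := by
  rcases lt_trichotomy k l with h | h | h
  · exact absurd (sst_anti h hl.1) hk.2
  · exact h
  · exact absurd (sst_anti h hk.1) hl.2

theorem corner (k : ℕ) {r x : ℤ} (hx : x ∈ iv k r) : ix k x = ix k (2 ^ k * r) := by
  rw [ix_two_pow_mul]
  exact mem_iv.1 hx

/-! ### Summation over squares -/

theorem sq_pts {k N : ℕ} (hk : k ≤ N) (R S : ℤ) (f : ℤ → ℤ → ℝ) :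
    ∑ r ∈ iv (N - k) R, ∑ s ∈ iv (N - k) S, ∑ x ∈ iv k r, ∑ y ∈ iv k s, f x y =
      ∑ x ∈ iv N R, ∑ y ∈ iv N S, f x y := by
  have h1 : ∀ r ∈ iv (N - k) R, ∑ s ∈ iv (N - k) S, ∑ x ∈ iv k r, ∑ y ∈ iv k s, f x y =
      ∑ x ∈ iv k r, ∑ y ∈ iv N S, f x y := by
    intro r _
    rw [sum_comm]
    exact sum_congr rfl fun x _ => H804.iv_sum hk S (f x)
  rw [sum_congr rfl h1]
  exact H804.iv_sum hk R fun x => ∑ y ∈ iv N S, f x y

/-- packing of the stopping squares -/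
theorem stop_pack (Λ : ℝ) (a : ℤ × ℤ → ℝ) (K N : ℕ) (R S : ℤ) :
    ∑ k ∈ range (N + 1), ∑ r ∈ iv (N - k) R, ∑ s ∈ iv (N - k) S,
      (if sst Λ a K k (2 ^ k * r) (2 ^ k * s) ∧ ¬ sst Λ a K (k + 1) (2 ^ k * r) (2 ^ k * s)
        then (4 : ℝ) ^ k else 0) ≤ 4 ^ N := by
  have h1 : ∀ k ∈ range (N + 1), ∑ r ∈ iv (N - k) R, ∑ s ∈ iv (N - k) S,
      (if sst Λ a K k (2 ^ k * r) (2 ^ k * s) ∧ ¬ sst Λ a K (k + 1) (2 ^ k * r) (2 ^ k * s)
        then (4 : ℝ) ^ k else 0) =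
      ∑ x ∈ iv N R, ∑ y ∈ iv N S, ind (stpt Λ a K k x y) := by
    intro k hk
    have hkN : k ≤ N := by have := mem_range.1 hk; omega
    rw [← sq_pts hkN R S]
    refine sum_congr rfl fun r _ => sum_congr rfl fun s _ => ?_
    have h2 : ∀ x ∈ iv k r, ∀ y ∈ iv k s, ind (stpt Λ a K k x y) =
        ind (stpt Λ a K k (2 ^ k * r) (2 ^ k * s)) := by
      intro x hx y hy
      unfold ind
      rw [if_congr (stpt_congr (corner k hx) (corner k hy)) rfl rfl]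
    rw [sum_congr rfl fun x hx => sum_congr rfl fun y hy => h2 x hx y hy]
    simp only [sum_const, card_iv, nsmul_eq_mul]
    have h3 : (2 : ℝ) ^ k * 2 ^ k = 4 ^ k := by rw [← mul_pow]; norm_num
    unfold ind stpt
    split_ifs
    · push_cast
      rw [mul_one, h3]
    · push_cast
      simp
  rw [sum_congr rfl h1, sum_comm]
  have h4 : ∀ x ∈ iv N R, ∑ k ∈ range (N + 1), ∑ y ∈ iv N S, ind (stpt Λ a K k x y) ≤
      ∑ y ∈ iv N S, (1 : ℝ) := by
    intro x _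
    rw [sum_comm]
    refine sum_le_sum fun y _ => ?_
    exact sum_ind_le_one (fun k l => stpt_disj k l) _
  refine (sum_le_sum h4).trans (le_of_eq ?_)
  simp only [sum_const, card_iv, nsmul_eq_mul, mul_one]
  push_cast
  rw [← mul_pow]
  norm_num

/-- packing of the points -/
theorem pt_pack (N : ℕ) (R S : ℤ) :
    ∑ k ∈ range (N + 1), ∑ r ∈ iv (N - k) R, ∑ s ∈ iv (N - k) S,
      (if k = 0 then (4 : ℝ) ^ k else 0) = 4 ^ N := by
  rw [sum_eq_single 0]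
  · simp only [if_true, pow_zero, Nat.sub_zero, sum_const, card_iv, nsmul_eq_mul, mul_one]
    push_cast
    rw [← mul_pow]
    norm_num
  · intro k _ hk
    refine sum_eq_zero fun r _ => sum_eq_zero fun s _ => ?_
    rw [if_neg hk]
  · intro h
    exact absurd (mem_range.2 (by omega)) h

/-- sum over the affected squares inside a square -/
theorem aff_filter_le {N K' : ℕ} {R S : ℤ} (Q : ℕ → ℤ → ℤ → Prop) (n' m' : ℤ) :
    ∑ i ∈ (Aff N R S Q).filter (fun i => i.1 ≤ K' ∧ ix (K' - i.1) i.2.1 = n' ∧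
      ix (K' - i.1) i.2.2 = m'), (4 : ℝ) ^ i.1 ≤
    ∑ k ∈ range (K' + 1), ∑ r ∈ iv (K' - k) n', ∑ s ∈ iv (K' - k) m',
      (if Q k r s then (4 : ℝ) ^ k else 0) := by
  set W : Finset (ℕ × ℤ × ℤ) := (range (K' + 1)).biUnion fun k =>
    ((iv (K' - k) n' ×ˢ iv (K' - k) m').filter fun q => Q k q.1 q.2).image fun q => (k, q) with hW
  have hsub : (Aff N R S Q).filter (fun i => i.1 ≤ K' ∧ ix (K' - i.1) i.2.1 = n' ∧
      ix (K' - i.1) i.2.2 = m') ⊆ W := by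
    intro i hi
    obtain ⟨h0, h1, h2, h3⟩ := mem_filter.1 hi
    have h4 := (mem_Aff.1 h0).2.2.2
    rw [hW, mem_biUnion]
    refine ⟨i.1, mem_range.2 (by omega), ?_⟩
    rw [mem_image]
    refine ⟨i.2, ?_, rfl⟩
    rw [mem_filter, mem_product, mem_iv, mem_iv]
    exact ⟨⟨h2, h3⟩, h4⟩
  refine (sum_le_sum_of_subset_of_nonneg hsub fun i _ _ => by positivity).trans (le_of_eq ?_)
  rw [hW, sum_biUnion]
  · refine sum_congr rfl fun k _ => ?_
    rw [sum_image, sum_filter, sum_product]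
    intro a _ b _ h
    exact (Prod.mk.inj h).2
  · intro k _ l _ hkl
    rw [Function.onFun, disjoint_left]
    intro i hi hi'
    rw [mem_image] at hi hi'
    obtain ⟨a, _, rfl⟩ := hi
    obtain ⟨b, _, hb⟩ := hi'
    exact hkl (Prod.mk.inj hb).1.symm

/-- packing of the affected squares of a gauged path, all squares of scale `K' ≤ n` -/
theorem Qth_pack {Λ : ℝ} {n : ℕ} {e cP : ℝ} {F : ℕ → Pt → ℝ} {Q : ℕ → Pt → Prop}
    (hB : BSl n e cP F Q) (a : ℤ × ℤ → ℝ) (K : ℕ) (x0 : ℤ) {K' : ℕ} (hK' : K' ≤ n) (r s : ℤ) :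
    ∑ k ∈ range (K' + 1), ∑ r' ∈ iv (K' - k) r, ∑ s' ∈ iv (K' - k) s,
      (if Qth Λ a K Q x0 k r' s' then (4 : ℝ) ^ k else 0) ≤ (cP + 2) * 4 ^ K' := by
  have h1 : ∀ k r' s', (if Qth Λ a K Q x0 k r' s' then (4 : ℝ) ^ k else 0) ≤
      (if k = 0 then (4 : ℝ) ^ k else 0) + (if Q k (ix k x0, r', s') then (4 : ℝ) ^ k else 0) +
      (if sst Λ a K k (2 ^ k * r') (2 ^ k * s') ∧ ¬ sst Λ a K (k + 1) (2 ^ k * r') (2 ^ k * s')
        then (4 : ℝ) ^ k else 0) := by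
    intro k r' s'
    have h4 : (0 : ℝ) < 4 ^ k := by positivity
    unfold Qth
    split_ifs <;> first | linarith | tauto
  refine (sum_le_sum fun k _ => sum_le_sum fun r' _ => sum_le_sum fun s' _ => h1 k r' s').trans ?_
  simp only [sum_add_distrib]
  have h2 := hB.pack x0 K' hK' r s
  have h3 := stop_pack Λ a K K' r s
  have h5 := pt_pack K' r s
  rw [h5]
  linarith

/-- **EN3a.** -/
theorem pthSt (Λ : ℝ) : PthSt Λ := by
  intro n e cP F Q hcP hB K hK a s t x0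
  refine ⟨?_, ?_, ?_⟩
  · intro k hk r hr s' hs' hQ x hx y hy
    unfold Qth at hQ
    push Not at hQ
    obtain ⟨hk0, hQ1, hQ2⟩ := hQ
    have hx1 : ix k x = r := mem_iv.1 hx
    have hy1 : ix k y = s' := mem_iv.1 hy
    have e1 := sst_congr (Λ := Λ) (a := a) (K := K) (corner k hx) (corner k hy)
    have e2 := sst_congr (Λ := Λ) (a := a) (K := K) (ix_of_le (Nat.le_succ k) (corner k hx))
      (ix_of_le (Nat.le_succ k) (corner k hy))
    unfold pth
    by_cases hst : sst Λ a K (k + 1) x y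
    · rw [if_pos (Or.inr hst), if_pos (Or.inr (sst_anti (Nat.le_succ k) hst))]
    · have hst' : ¬ sst Λ a K k x y := fun h => hst (e2.2 (hQ2 (e1.1 h)))
      rw [if_neg (by push Not; exact ⟨by omega, hst⟩), if_neg (by push Not; exact ⟨hk0, hst'⟩)]
      congr 1
      refine hB.agree k (by omega) (by omega) (ix k x0, r, s') hQ1 (x0, x, y) ?_
      rw [mem_cb]
      unfold cx
      rw [hx1, hy1]
  · funext x y
    unfold pth
    rw [if_pos (Or.inl rfl)]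
    rfl
  · intro K' hK' n' m'
    exact (aff_filter_le _ n' m').trans (Qth_pack hB a K x0 (hK'.trans hK) n' m')

/-! ### Own energies -/

/-- the abstract summation over `x₀` -/
theorem slice_sum {K : ℕ} {t0 R S : ℤ} {c μ : ℝ} {Q : ℕ → Pt → Prop}
    {T : ℤ → ℕ → ℤ → ℤ → ℝ} (hμ : 0 ≤ μ)
    (hT : ∀ k < K, ∀ q0 n m, ∑ x0 ∈ iv k q0, T x0 k n m ≤ 8 ^ k * μ)
    (hP : ∀ x0, ∑ k ∈ range K, ∑ m ∈ iv (K - k) S, ∑ n ∈ iv (K - k) R,
      (if Q k (ix k x0, n, m) then (4 : ℝ) ^ k else 0) ≤ c * 4 ^ K) :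
    ∑ x0 ∈ iv K t0, ∑ k ∈ range K, ∑ m ∈ iv (K - k) S, ∑ n ∈ iv (K - k) R,
      (if Q k (ix k x0, n, m) then T x0 k n m else 0) ≤ c * μ * 8 ^ K := by
  have key : ∀ k ∈ range K, ∀ m n : ℤ,
      ∑ x0 ∈ iv K t0, (if Q k (ix k x0, n, m) then T x0 k n m else 0) ≤
      ∑ x0 ∈ iv K t0, μ * (if Q k (ix k x0, n, m) then (4 : ℝ) ^ k else 0) := by
    intro k hk m n
    have hkK : k < K := mem_range.1 hk
    rw [← H804.iv_sum hkK.le t0, ← H804.iv_sum hkK.le t0]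
    refine sum_le_sum fun q0 _ => ?_
    have e1 : ∀ x0 ∈ iv k q0, (if Q k (ix k x0, n, m) then T x0 k n m else 0) =
        if Q k (q0, n, m) then T x0 k n m else 0 := by
      intro x0 hx0
      rw [mem_iv.1 hx0]
    have e2 : ∀ x0 ∈ iv k q0, μ * (if Q k (ix k x0, n, m) then (4 : ℝ) ^ k else 0) =
        if Q k (q0, n, m) then μ * 4 ^ k else 0 := by
      intro x0 hx0
      rw [mem_iv.1 hx0]
      split_ifs <;> simp
    rw [sum_congr rfl e1, sum_congr rfl e2]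
    split_ifs with h
    · refine (hT k hkK q0 n m).trans (le_of_eq ?_)
      rw [sum_const, card_iv, nsmul_eq_mul]
      push_cast
      have h8 : (8 : ℝ) ^ k = 2 ^ k * 4 ^ k := by rw [← mul_pow]; norm_num
      rw [h8]
      ring
    · simp
  have e3 : ∀ (f : ℤ → ℕ → ℤ → ℤ → ℝ), ∑ x0 ∈ iv K t0, ∑ k ∈ range K, ∑ m ∈ iv (K - k) S,
      ∑ n ∈ iv (K - k) R, f x0 k n m = ∑ k ∈ range K, ∑ m ∈ iv (K - k) S, ∑ n ∈ iv (K - k) R,
      ∑ x0 ∈ iv K t0, f x0 k n m := by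
    intro f
    rw [sum_comm]
    refine sum_congr rfl fun k _ => ?_
    rw [sum_comm]
    refine sum_congr rfl fun m _ => ?_
    rw [sum_comm]
  rw [e3]
  refine (sum_le_sum fun k hk => sum_le_sum fun m _ => sum_le_sum fun n _ => key k hk m n).trans ?_
  rw [← e3]
  have h4 : ∀ x0 ∈ iv K t0, ∑ k ∈ range K, ∑ m ∈ iv (K - k) S, ∑ n ∈ iv (K - k) R,
      μ * (if Q k (ix k x0, n, m) then (4 : ℝ) ^ k else 0) ≤ μ * (c * 4 ^ K) := by
    intro x0 _
    simp only [← mul_sum]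
    exact mul_le_mul_of_nonneg_left (hP x0) hμ
  refine (sum_le_sum h4).trans (le_of_eq ?_)
  rw [sum_const, card_iv, nsmul_eq_mul]
  push_cast
  have h8 : (8 : ℝ) ^ K = 2 ^ K * 4 ^ K := by rw [← mul_pow]; norm_num
  rw [h8]
  ring

/-- packing of the root -/
theorem root_pack {Λ : ℝ} {n : ℕ} {e cP : ℝ} {F : ℕ → Pt → ℝ} {Q : ℕ → Pt → Prop}
    (hB : BSl n e cP F Q) (a : ℤ × ℤ → ℝ) {K : ℕ} (hK : K ≤ n) (R S x0 : ℤ) :
    ∑ k ∈ range K, ∑ m ∈ iv (K - k) S, ∑ r ∈ iv (K - k) R,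
      (if Qth Λ a K Q x0 k r m then (4 : ℝ) ^ k else 0) ≤ (cP + 2) * 4 ^ K := by
  refine le_trans ?_ (Qth_pack (Λ := Λ) hB a K x0 hK R S)
  rw [sum_range_succ]
  have h0 : 0 ≤ ∑ r' ∈ iv (K - K) R, ∑ s' ∈ iv (K - K) S,
      (if Qth Λ a K Q x0 K r' s' then (4 : ℝ) ^ K else 0) := by
    refine sum_nonneg fun _ _ => sum_nonneg fun _ _ => ?_
    split_ifs
    · positivity
    · exact le_rfl
  refine (le_of_eq ?_).trans (le_add_of_nonneg_right h0)
  exact sum_congr rfl fun k _ => sum_comm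

/-- the affected cubes of a gauged path -/
def Qcb (Λ : ℝ) (a : ℤ × ℤ → ℝ) (K : ℕ) (Q : ℕ → Pt → Prop) (k : ℕ) (m : Pt) : Prop :=
  k = 0 ∨ Q k m ∨ (sst Λ a K k (2 ^ k * m.2.1) (2 ^ k * m.2.2) ∧
    ¬ sst Λ a K (k + 1) (2 ^ k * m.2.1) (2 ^ k * m.2.2))

theorem Qth_eq (Λ : ℝ) (a : ℤ × ℤ → ℝ) (K : ℕ) (Q : ℕ → Pt → Prop) (x0 : ℤ) (k : ℕ) (r s : ℤ) :
    Qth Λ a K Q x0 k r s = Qcb Λ a K Q k (ix k x0, r, s) := rfl

/-- the child average -/
theorem A2_child (a : ℤ × ℤ → ℝ) (k : ℕ) (x y : ℤ) : A2 k a x y ≤ 4 * A2 (k + 1) a x y := by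
  unfold A2
  refine H419.avg_le_of_subset ?_ (by norm_num) ?_ fun _ _ => sq_nonneg _
  · exact product_subset_product (PL.H315.iv_sub k x) (PL.H315.iv_sub k y)
  · rw [card_product, card_product, PL.H315.card_iv, PL.H315.card_iv, PL.H315.card_iv,
      PL.H315.card_iv]
    push_cast
    rw [pow_succ]
    ring_nf
    exact le_rfl

theorem A4_child (a : ℤ × ℤ → ℝ) (k : ℕ) (x y : ℤ) : A4 k a x y ≤ 4 * A4 (k + 1) a x y := by
  unfold A4
  refine H419.avg_le_of_subset ?_ (by norm_num) ?_ fun _ _ => by positivity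
  · exact product_subset_product (PL.H315.iv_sub k x) (PL.H315.iv_sub k y)
  · rw [card_product, card_product, PL.H315.card_iv, PL.H315.card_iv, PL.H315.card_iv,
      PL.H315.card_iv]
    push_cast
    rw [pow_succ]
    ring_nf
    exact le_rfl

theorem A4_nonneg (k : ℕ) (a : ℤ × ℤ → ℝ) (x y : ℤ) : 0 ≤ A4 k a x y :=
  avg_nonneg fun _ _ => by positivity

/-- `A2`, `A4` in the index letters -/
theorem n2_sq_iv (a : ℤ × ℤ → ℝ) (k : ℕ) (n m : ℤ) :
    n2 (iv k n ×ˢ iv k m) (fun p => a (p.1, p.2)) ^ 2 = A2 k a (2 ^ k * n) (2 ^ k * m) := by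
  rw [H922.n2_sq]
  unfold A2
  rw [← iv_ix, ← iv_ix]

theorem n4_sq_iv (a : ℤ × ℤ → ℝ) (k : ℕ) (n m : ℤ) :
    n4 (iv k n ×ˢ iv k m) (fun p => a (p.1, p.2)) ^ 2 = √(A4 k a (2 ^ k * n) (2 ^ k * m)) := by
  rw [H922.n4_sq]
  unfold A4
  rw [← iv_ix, ← iv_ix]

/-- on a square which is not stopped at the next scale -/
theorem not_sst_le {Λ : ℝ} {a : ℤ × ℤ → ℝ} {K k : ℕ} (hk : k < K) {x y : ℤ}
    (h : ¬ sst Λ a K (k + 1) x y) :
    A2 k a x y ≤ 4 * (Λ * A2 K a x y) ∧ A4 k a x y ≤ 4 * (Λ * A4 K a x y) := by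
  have h1 : ¬ bg Λ a K (k + 1) x y := fun hb => h ⟨k + 1, le_rfl, hk, hb⟩
  unfold bg at h1
  push Not at h1
  exact ⟨(A2_child a k x y).trans (by linarith [h1.1]), (A4_child a k x y).trans (by linarith [h1.2])⟩

/-- the block of a path at scale `k` -/
theorem s4_congr {a b : ℕ} {F F' : ℤ → ℤ → ℝ} {n m : ℤ}
    (h : ∀ x ∈ iv a n, ∀ y ∈ iv b m, F x y = F' x y) : s4 a b F n m = s4 a b F' n m := by
  rw [s4_avg, s4_avg]
  refine avg_congr fun x hx => avg_congr fun c hc => ?_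
  rw [avg_congr fun y hy => by rw [h x hx y hy, h c hc y hy]]

theorem s4_zero (a b : ℕ) (n m : ℤ) : s4 a b (fun _ _ => 0) n m = 0 := by
  rw [s4_avg]
  simp only [mul_zero]
  have h0 : ∀ Q : Finset ℤ, (avg Q fun _ : ℤ => (0 : ℝ)) = 0 := by
    intro Q
    unfold avg
    rw [sum_const_zero, mul_zero]
  simp only [h0]
  norm_num [h0]

/-- sum over the slices of the blocks of a path -/
theorem s4_block {Λ M : ℝ} (hΛ : 1 ≤ Λ) (hM : 0 ≤ M) {n : ℕ} {F : ℕ → Pt → ℝ} (hMo : H48.Mo4 n M F)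
    {K : ℕ} (hK : K ≤ n) (a : ℤ × ℤ → ℝ) {k : ℕ} (hk : k < K) (q0 r s : ℤ) {X Y : ℤ}
    (hX : ix (K - k) r = ix K X) (hY : ix (K - k) s = ix K Y) :
    ∑ x0 ∈ iv k q0, s4 k k (pth Λ a K F x0 (k + 1)) r s ≤
      2 ^ k * (8 * Λ ^ 2 * M * (A2 K a X Y * √(A4 K a X Y))) := by
  have hA2 : 0 ≤ A2 K a X Y := PL.H315.A2_nonneg _ _ _ _
  have hA4 : 0 ≤ A4 K a X Y := A4_nonneg _ _ _ _
  have hpos : 0 ≤ 2 ^ k * (8 * Λ ^ 2 * M * (A2 K a X Y * √(A4 K a X Y))) := by positivity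
  have hcx : ix K (2 ^ k * r) = ix K X := by
    rw [← hX, ← Nat.add_sub_cancel' hk.le, ← ix_ix, ix_two_pow_mul, Nat.add_sub_cancel_left]
  have hcy : ix K (2 ^ k * s) = ix K Y := by
    rw [← hY, ← Nat.add_sub_cancel' hk.le, ← ix_ix, ix_two_pow_mul, Nat.add_sub_cancel_left]
  by_cases hst : sst Λ a K (k + 1) (2 ^ k * r) (2 ^ k * s)
  · refine le_trans (le_of_eq ?_) hpos
    refine sum_eq_zero fun x0 _ => ?_
    rw [s4_congr (F' := fun _ _ => 0), s4_zero]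
    intro x hx y hy
    unfold pth
    rw [if_pos]
    right
    exact (sst_congr (ix_of_le (Nat.le_succ k) (corner k hx))
      (ix_of_le (Nat.le_succ k) (corner k hy))).2 hst
  · have e1 : ∀ x0 ∈ iv k q0, s4 k k (pth Λ a K F x0 (k + 1)) r s =
        s4 k k (fun x y => a (x, y) * F (k + 1) (x0, x, y)) r s := by
      intro x0 _
      refine s4_congr fun x hx y hy => ?_
      unfold pth
      rw [if_neg]
      push Not
      refine ⟨by omega, fun h => hst ?_⟩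
      exact (sst_congr (ix_of_le (Nat.le_succ k) (corner k hx))
        (ix_of_le (Nat.le_succ k) (corner k hy))).1 h
    rw [sum_congr rfl e1, sum_eq_avg]
    refine mul_le_mul_of_nonneg_left ?_ (by positivity)
    have h1 := hMo k (hk.trans_le hK) (q0, r, s) (fun x y => a (x, y))
    have e2 : (avg (iv k q0) fun x0 => s4 k k (fun x y => a (x, y) * F (k + 1) (x0, x, y)) r s) =
        mo4f (iv k q0) (iv k r) (iv k s) (fun x y => a (x, y)) (F (k + 1)) := by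
      unfold mo4f
      exact avg_congr fun z _ => s4_avg _ _ _ _ _
    rw [e2]
    refine h1.trans ?_
    rw [n2_sq_iv, n4_sq_iv]
    obtain ⟨h2, h3⟩ := not_sst_le hk hst
    have e3 : A2 K a (2 ^ k * r) (2 ^ k * s) = A2 K a X Y := by
      unfold A2
      rw [ptiv_congr hcx, ptiv_congr hcy]
    have e4 : A4 K a (2 ^ k * r) (2 ^ k * s) = A4 K a X Y := by
      unfold A4
      rw [ptiv_congr hcx, ptiv_congr hcy]
    rw [e3] at h2
    rw [e4] at h3
    have h5 : √(A4 k a (2 ^ k * r) (2 ^ k * s)) ≤ 2 * (Λ * √(A4 K a X Y)) := by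
      refine (Real.sqrt_le_sqrt h3).trans ?_
      have h6 : 4 * (Λ * A4 K a X Y) ≤ (2 * (Λ * √(A4 K a X Y))) ^ 2 := by
        have h7 : (2 * (Λ * √(A4 K a X Y))) ^ 2 = 4 * (Λ ^ 2 * √(A4 K a X Y) ^ 2) := by ring
        rw [h7, Real.sq_sqrt hA4]
        have h8 : Λ ≤ Λ ^ 2 := by nlinarith
        nlinarith [mul_le_mul_of_nonneg_right h8 hA4]
      exact (Real.sqrt_le_sqrt h6).trans (le_of_eq (Real.sqrt_sq (by positivity)))
    calc M * (A2 k a (2 ^ k * r) (2 ^ k * s) * √(A4 k a (2 ^ k * r) (2 ^ k * s)))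
        ≤ M * ((4 * (Λ * A2 K a X Y)) * (2 * (Λ * √(A4 K a X Y)))) := by
          refine mul_le_mul_of_nonneg_left ?_ hM
          exact mul_le_mul h2 h5 (Real.sqrt_nonneg _) (by positivity)
      _ = 8 * Λ ^ 2 * M * (A2 K a X Y * √(A4 K a X Y)) := by ring

/-- sum over the slices of the squares of a path -/
theorem sqb_block {Λ e cP : ℝ} (hΛ : 1 ≤ Λ) (he : 0 ≤ e) {n : ℕ} {F : ℕ → Pt → ℝ}
    {Q : ℕ → Pt → Prop} (hB : BSl n e cP F Q)
    {K : ℕ} (hK : K ≤ n) (a : ℤ × ℤ → ℝ) {k : ℕ} (hk : k < K) (q0 r s : ℤ) {X Y : ℤ}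
    (hX : ix (K - k) r = ix K X) (hY : ix (K - k) s = ix K Y) :
    ∑ x0 ∈ iv k q0, sqb k r s (pth Λ a K F x0 (k + 1)) ≤
      8 ^ k * (4 * Λ * e * A2 K a X Y) := by
  have hA2 : 0 ≤ A2 K a X Y := PL.H315.A2_nonneg _ _ _ _
  have hpos : 0 ≤ 8 ^ k * (4 * Λ * e * A2 K a X Y) := by positivity
  have hcx : ix K (2 ^ k * r) = ix K X := by
    rw [← hX, ← Nat.add_sub_cancel' hk.le, ← ix_ix, ix_two_pow_mul, Nat.add_sub_cancel_left]
  have hcy : ix K (2 ^ k * s) = ix K Y := by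
    rw [← hY, ← Nat.add_sub_cancel' hk.le, ← ix_ix, ix_two_pow_mul, Nat.add_sub_cancel_left]
  unfold sqb
  by_cases hst : sst Λ a K (k + 1) (2 ^ k * r) (2 ^ k * s)
  · refine le_trans (le_of_eq ?_) hpos
    refine sum_eq_zero fun x0 _ => sum_eq_zero fun y hy => sum_eq_zero fun x hx => ?_
    unfold pth
    rw [if_pos]
    · norm_num
    right
    exact (sst_congr (ix_of_le (Nat.le_succ k) (corner k hx))
      (ix_of_le (Nat.le_succ k) (corner k hy))).2 hst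
  · have e1 : ∀ x0 ∈ iv k q0, ∑ y ∈ iv k s, ∑ x ∈ iv k r, pth Λ a K F x0 (k + 1) x y ^ 2 =
        ∑ y ∈ iv k s, ∑ x ∈ iv k r, a (x, y) ^ 2 * F (k + 1) (x0, x, y) ^ 2 := by
      intro x0 _
      refine sum_congr rfl fun y hy => sum_congr rfl fun x hx => ?_
      unfold pth
      rw [if_neg]
      · ring
      push Not
      refine ⟨by omega, fun h => hst ?_⟩
      exact (sst_congr (ix_of_le (Nat.le_succ k) (corner k hx))
        (ix_of_le (Nat.le_succ k) (corner k hy))).1 h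
    rw [sum_congr rfl e1, sum_comm]
    have e2 : ∀ y ∈ iv k s, ∑ x0 ∈ iv k q0, ∑ x ∈ iv k r,
        a (x, y) ^ 2 * F (k + 1) (x0, x, y) ^ 2 ≤ ∑ x ∈ iv k r, a (x, y) ^ 2 * (e * 2 ^ k) := by
      intro y _
      rw [sum_comm]
      refine sum_le_sum fun x _ => ?_
      rw [← mul_sum]
      exact mul_le_mul_of_nonneg_left (hB.l0 k (hk.trans_le hK) q0 x y) (sq_nonneg _)
    refine (sum_le_sum e2).trans ?_
    simp only [← sum_mul]
    have e3 : ∑ y ∈ iv k s, ∑ x ∈ iv k r, a (x, y) ^ 2 =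
        4 ^ k * A2 k a (2 ^ k * r) (2 ^ k * s) := by
      unfold A2 avg
      rw [← iv_ix, ← iv_ix, card_product, card_iv, card_iv, sum_product_right]
      push_cast
      have h4 : (4 : ℝ) ^ k = 2 ^ k * 2 ^ k := by rw [← mul_pow]; norm_num
      rw [h4, ← mul_assoc, mul_inv_cancel₀ (by positivity), one_mul]
    rw [e3]
    obtain ⟨h2, _⟩ := not_sst_le hk hst
    have e4 : A2 K a (2 ^ k * r) (2 ^ k * s) = A2 K a X Y := by
      unfold A2
      rw [ptiv_congr hcx, ptiv_congr hcy]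
    rw [e4] at h2
    have h8 : (8 : ℝ) ^ k = 4 ^ k * 2 ^ k := by rw [← mul_pow]; norm_num
    calc 4 ^ k * A2 k a (2 ^ k * r) (2 ^ k * s) * (e * 2 ^ k)
        ≤ 4 ^ k * (4 * (Λ * A2 K a X Y)) * (e * 2 ^ k) := by gcongr
      _ = 8 ^ k * (4 * Λ * e * A2 K a X Y) := by rw [h8]; ring

/-- **EN3b.** -/
theorem ownSt {Λ : ℝ} (hΛ : 1 ≤ Λ) : OwnSt Λ := by
  intro n e cP M F Q hcP he hM hB hMo K hK a s t t0
  have hA2 : 0 ≤ A2 K a s t := PL.H315.A2_nonneg _ _ _ _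
  have hA4 : 0 ≤ A4 K a s t := A4_nonneg _ _ _ _
  -- the summands off the root are cut
  have hroot : ∀ (f : ℕ → ℤ → ℤ → ℝ) (P : ℕ → ℤ → ℤ → Prop) (R S : ℤ), ∑ k ∈ range K,
      ∑ m ∈ iv (K - k) S, ∑ r ∈ iv (K - k) R, (if P k r m then f k r m else 0) =
      ∑ k ∈ range K, ∑ m ∈ iv (K - k) S, ∑ r ∈ iv (K - k) R,
        (if P k r m then (if ix (K - k) r = R ∧ ix (K - k) m = S then f k r m else 0) else 0) := by
    intro f P R S
    refine sum_congr rfl fun k _ => sum_congr rfl fun m hm => sum_congr rfl fun r hr => ?_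
    rw [if_pos (show ix (K - k) r = R ∧ ix (K - k) m = S from ⟨mem_iv.1 hr, mem_iv.1 hm⟩)]
  constructor
  · have e1 : ∀ x0 ∈ iv K t0, own4 K (ix K s) (ix K t) (Qth Λ a K Q x0) (pth Λ a K F x0) =
        ∑ k ∈ range K, ∑ m ∈ iv (K - k) (ix K t), ∑ r ∈ iv (K - k) (ix K s),
          (if Qcb Λ a K Q k (ix k x0, r, m) then
            (if ix (K - k) r = ix K s ∧ ix (K - k) m = ix K t then
              4 ^ k * s4 k k (pth Λ a K F x0 (k + 1)) r m else 0) else 0) := by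
      intro x0 _
      unfold own4
      rw [sum_Aff, hroot (fun k r m => 4 ^ k * s4 k k (pth Λ a K F x0 (k + 1)) r m)]
      rfl
    rw [sum_congr rfl e1]
    have h1 := slice_sum (K := K) (t0 := t0) (R := ix K s) (S := ix K t) (c := cP + 2)
      (μ := 8 * Λ ^ 2 * M * (A2 K a s t * √(A4 K a s t))) (Q := Qcb Λ a K Q)
      (T := fun x0 k r m => if ix (K - k) r = ix K s ∧ ix (K - k) m = ix K t then
              4 ^ k * s4 k k (pth Λ a K F x0 (k + 1)) r m else 0) (by positivity)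
      (by
        intro k hk q0 r m
        by_cases hh : ix (K - k) r = ix K s ∧ ix (K - k) m = ix K t
        · simp only [if_pos hh]
          rw [← mul_sum]
          have h2 := s4_block hΛ hM hMo hK a hk q0 r m hh.1 hh.2
          have h8 : (8 : ℝ) ^ k = 4 ^ k * 2 ^ k := by rw [← mul_pow]; norm_num
          rw [h8, mul_assoc]
          exact mul_le_mul_of_nonneg_left h2 (by positivity)
        · simp only [if_neg hh, sum_const_zero]
          positivity)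
      (fun x0 => root_pack hB a hK (ix K s) (ix K t) x0)
    refine h1.trans (le_of_eq ?_)
    ring
  · have e1 : ∀ x0 ∈ iv K t0, pwr K (ix K s) (ix K t) (Qth Λ a K Q x0) (pth Λ a K F x0) =
        ∑ k ∈ range K, ∑ m ∈ iv (K - k) (ix K t), ∑ r ∈ iv (K - k) (ix K s),
          (if Qcb Λ a K Q k (ix k x0, r, m) then
            (if ix (K - k) r = ix K s ∧ ix (K - k) m = ix K t then
              sqb k r m (pth Λ a K F x0 (k + 1)) else 0) else 0) := by
      intro x0 _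
      unfold pwr sqQ
      rw [hroot (fun k r m => sqb k r m (pth Λ a K F x0 (k + 1)))]
      rfl
    rw [sum_congr rfl e1]
    have h1 := slice_sum (K := K) (t0 := t0) (R := ix K s) (S := ix K t) (c := cP + 2)
      (μ := 4 * Λ * e * A2 K a s t) (Q := Qcb Λ a K Q)
      (T := fun x0 k r m => if ix (K - k) r = ix K s ∧ ix (K - k) m = ix K t then
              sqb k r m (pth Λ a K F x0 (k + 1)) else 0) (by positivity)
      (by
        intro k hk q0 r m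
        by_cases hh : ix (K - k) r = ix K s ∧ ix (K - k) m = ix K t
        · simp only [if_pos hh]
          exact sqb_block hΛ he hB hK a hk q0 r m hh.1 hh.2
        · simp only [if_neg hh, sum_const_zero]
          positivity)
      (fun x0 => root_pack hB a hK (ix K s) (ix K t) x0)
    refine h1.trans (le_of_eq ?_)
    ring

end

end Vale.Agent.P141.H769
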