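import Vale.Agent.P141.H550.Pair

/-!
# P141, line W: CB4 (row 2734 [B])

`G` is `δ`-uniform on a box `A × B × C` (edge weights `Nm e`).  For a weight `w c y x`
(for a composite vertex `w c y x = ⟪u x y, u x c⟫`) the fourth Schatten power of the matrices
`((x, λ), y) ↦ u_λ (x, y) G (x, y, z)`, averaged over `z`, is
`avg_c avg_y avg_z (avg_x w c y x G (x,y,z) G (x,c,z))^2`.
For fixed `c` it is the correlation of `G` with ONE product of edge functions.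
-/

namespace Vale.Agent.P141.H769

noncomputable section

open scoped BigOperators
open Vale.Agent.P141.PL.H315 Vale.Agent.P141.H315 Vale.Agent.P141.H550

/-- One center `c`: the self-improving inequality. -/
theorem cb4_center_aux {δ e M W : ℝ} (hδ : 0 ≤ δ) (he0 : 0 ≤ e) (he1 : e ≤ 1) (hM : 0 ≤ M)
    (hW : 0 ≤ W) {A B C : Finset ℤ} (hA : A.Nonempty) {G : ℤ × ℤ × ℤ → ℝ}
    (hU : UnifBox δ e A B C G)
    (hG : ∀ x ∈ A, ∀ y ∈ B, ∀ z ∈ C, |G (x, y, z)| ≤ M) {c : ℤ} (hc : c ∈ B)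
    (w : ℤ → ℤ → ℝ) (hw : ∀ y ∈ B, ∀ x ∈ A, |w y x| ≤ W) {n E : ℝ}
    (hn : (avg B fun y => avg A fun x => w y x ^ 2) ≤ n)
    (hE : (avg A fun x => avg C fun z => G (x, c, z) ^ 2) ≤ E)
    {P : ℝ} (hP : P = avg B fun y => avg C fun z =>
      (avg A fun x => w y x * (G (x, y, z) * G (x, c, z))) ^ 2) :
    P ≤ δ * ((n ^ ((1 - e) / 2) * W ^ e) * (E ^ ((1 - e) / 2) * M ^ e) *
      (P ^ ((1 - e) / 2) * (W * M ^ 2) ^ e)) := by
  classical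
  set h : ℤ → ℤ → ℝ := fun y z => avg A fun x => w y x * (G (x, y, z) * G (x, c, z)) with hh
  let u12 : ℤ × ℤ → ℝ := fun q => w q.2 q.1
  let u13 : ℤ × ℤ → ℝ := fun q => G (q.1, c, q.2)
  let u23 : ℤ × ℤ → ℝ := fun q => h q.1 q.2
  have hh_le : ∀ y ∈ B, ∀ z ∈ C, |h y z| ≤ W * M ^ 2 := by
    intro y hy z hz
    refine abs_avg_le_of hA fun x hx => ?_
    rw [abs_mul, abs_mul]
    calc |w y x| * (|G (x, y, z)| * |G (x, c, z)|) ≤ W * (M * M) :=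
          mul_le_mul (hw y hy x hx) (mul_le_mul (hG x hx y hy z hz) (hG x hx c hc z hz)
            (abs_nonneg _) hM) (by positivity) hW
      _ = W * M ^ 2 := by ring
  have hpair : avg (A ×ˢ B ×ˢ C) (fun q => G q * atm (u12, u13, u23) q) = P := by
    rw [hP, avg_prod]
    have e1 : ∀ x ∈ A, avg (B ×ˢ C) (fun q => G (x, q) * atm (u12, u13, u23) (x, q)) =
        avg B fun y => avg C fun z => G (x, y, z) * atm (u12, u13, u23) (x, y, z) := by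
      intro x _
      rw [avg_prod]
    rw [avg_congr e1, avg_comm]
    refine avg_congr fun y _ => ?_
    rw [avg_comm]
    refine avg_congr fun z _ => ?_
    have e3 : ∀ x ∈ A, G (x, y, z) * atm (u12, u13, u23) (x, y, z) =
        h y z * (w y x * (G (x, y, z) * G (x, c, z))) := by
      intro x _
      simp only [atm, e12, e13, e23, u12, u13, u23]
      ring
    rw [avg_congr e3, avg_mul_left]
    show h y z * h y z = h y z ^ 2
    ring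
  have hN12 : Nm e (A ×ˢ B) u12 ≤ n ^ ((1 - e) / 2) * W ^ e := by
    refine Nm_le he0 he1 hW ?_ ?_
    · rw [avg_prod, avg_comm]; exact hn
    · rintro ⟨x, y⟩ hq
      rw [Finset.mem_product] at hq
      exact hw y hq.2 x hq.1
  have hN13 : Nm e (A ×ˢ C) u13 ≤ E ^ ((1 - e) / 2) * M ^ e := by
    refine Nm_le he0 he1 hM ?_ ?_
    · rw [avg_prod]; exact hE
    · rintro ⟨x, z⟩ hq
      rw [Finset.mem_product] at hq
      exact hG x hq.1 c hc z hq.2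
  have hN23 : Nm e (B ×ˢ C) u23 ≤ P ^ ((1 - e) / 2) * (W * M ^ 2) ^ e := by
    refine Nm_le he0 he1 (by positivity) ?_ ?_
    · rw [avg_prod, hP]
    · rintro ⟨y, z⟩ hq
      rw [Finset.mem_product] at hq
      exact hh_le y hq.1 z hq.2
  have hu := hU (u12, u13, u23)
  rw [hpair] at hu
  refine (le_abs_self _).trans (hu.trans ?_)
  refine mul_le_mul_of_nonneg_left ?_ hδ
  have p1 := Nm_nonneg e (A ×ˢ B) u12
  have p2 := Nm_nonneg e (A ×ˢ C) u13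
  have p3 := Nm_nonneg e (B ×ˢ C) u23
  exact mul_le_mul (mul_le_mul hN12 hN13 p2 (p1.trans hN12)) hN23 p3
    (mul_nonneg (p1.trans hN12) (p2.trans hN13))

/-- **CB4**, one center `c`: `P ^ (1 + e) ≤ δ² (n E)^(1-e) (W² M³)^(2e)`. -/
theorem cb4_center_pow {δ e M W : ℝ} (hδ : 0 ≤ δ) (he0 : 0 ≤ e) (he1 : e ≤ 1) (hM : 0 ≤ M)
    (hW : 0 ≤ W) {A B C : Finset ℤ} (hA : A.Nonempty) {G : ℤ × ℤ × ℤ → ℝ}
    (hU : UnifBox δ e A B C G)
    (hG : ∀ x ∈ A, ∀ y ∈ B, ∀ z ∈ C, |G (x, y, z)| ≤ M) {c : ℤ} (hc : c ∈ B)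
    (w : ℤ → ℤ → ℝ) (hw : ∀ y ∈ B, ∀ x ∈ A, |w y x| ≤ W) {n E : ℝ}
    (hn : (avg B fun y => avg A fun x => w y x ^ 2) ≤ n)
    (hE : (avg A fun x => avg C fun z => G (x, c, z) ^ 2) ≤ E) :
    (avg B fun y => avg C fun z =>
      (avg A fun x => w y x * (G (x, y, z) * G (x, c, z))) ^ 2) ^ (1 + e) ≤
      δ ^ 2 * (n * E) ^ (1 - e) * (W ^ 2 * M ^ 3) ^ (2 * e) := by
  set P : ℝ := avg B fun y => avg C fun z =>
      (avg A fun x => w y x * (G (x, y, z) * G (x, c, z))) ^ 2 with hP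
  have hP0 : 0 ≤ P := avg_nonneg fun _ _ => avg_nonneg fun _ _ => sq_nonneg _
  have hn0 : 0 ≤ n := (avg_nonneg fun _ _ => avg_nonneg fun _ _ => sq_nonneg _).trans hn
  have hE0 : 0 ≤ E := (avg_nonneg fun _ _ => avg_nonneg fun _ _ => sq_nonneg _).trans hE
  have hrhs : 0 ≤ δ ^ 2 * (n * E) ^ (1 - e) * (W ^ 2 * M ^ 3) ^ (2 * e) := by positivity
  rcases hP0.eq_or_lt with h0 | hpos
  · rw [← h0, Real.zero_rpow (by linarith)]; exact hrhs
  have key := cb4_center_aux hδ he0 he1 hM hW hA hU hG hc w hw hn hE hP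
  set Z : ℝ := δ * ((n ^ ((1 - e) / 2) * W ^ e) * (E ^ ((1 - e) / 2) * M ^ e) *
      (W * M ^ 2) ^ e) with hZ
  have hZ0 : 0 ≤ Z := by positivity
  have key2 : P ≤ Z * P ^ ((1 - e) / 2) := by
    calc P ≤ _ := key
      _ = _ := by rw [hZ]; ring
  have hq : 0 < P ^ ((1 - e) / 2) := Real.rpow_pos_of_pos hpos _
  have key3 : P ^ ((1 + e) / 2) ≤ Z := by
    have h1 : P = P ^ ((1 + e) / 2) * P ^ ((1 - e) / 2) := by
      rw [← Real.rpow_add hpos]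
      have : (1 + e) / 2 + (1 - e) / 2 = 1 := by ring
      rw [this, Real.rpow_one]
    have h2 : P ^ ((1 + e) / 2) * P ^ ((1 - e) / 2) ≤ Z * P ^ ((1 - e) / 2) := by
      rw [← h1]; exact key2
    exact le_of_mul_le_mul_right h2 hq
  have h3 : P ^ (1 + e) = (P ^ ((1 + e) / 2)) ^ 2 := by
    rw [← Real.rpow_natCast, ← Real.rpow_mul hP0]
    congr 1; push_cast; ring
  rw [h3]
  refine (pow_le_pow_left₀ (Real.rpow_nonneg hP0 _) key3 2).trans (le_of_eq ?_)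
  have e1 : ∀ a : ℝ, 0 ≤ a → (a ^ ((1 - e) / 2)) ^ 2 = a ^ (1 - e) := by
    intro a ha
    rw [← Real.rpow_natCast, ← Real.rpow_mul ha]
    congr 1; push_cast; ring
  have e2 : ∀ a : ℝ, 0 ≤ a → (a ^ e) ^ 2 = a ^ (2 * e) := by
    intro a ha
    rw [← Real.rpow_natCast, ← Real.rpow_mul ha]
    congr 1; push_cast; ring
  rw [hZ, Real.mul_rpow hn0 hE0]
  have e3 : W ^ 2 * M ^ 3 = W * M * (W * M ^ 2) := by ring
  rw [e3, Real.mul_rpow (mul_nonneg hW hM) (by positivity), Real.mul_rpow hW hM]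
  rw [← e1 n hn0, ← e1 E hE0, ← e2 W hW, ← e2 M hM, ← e2 (W * M ^ 2) (by positivity)]
  ring

/-- Powers less than one against the first power. -/
theorem rpow_le_lin {X κ θ : ℝ} (hX : 0 ≤ X) (hκ : 0 < κ) (hθ0 : 0 ≤ θ) (hθ : θ ≤ 1) :
    X ^ θ ≤ κ ^ (θ - 1) * X + κ ^ θ := by
  rcases le_total κ X with h | h
  · have hX0 : 0 < X := hκ.trans_le h
    have h1 : X ^ θ = X ^ (θ - 1) * X := by
      rw [← Real.rpow_add_one hX0.ne']; congr 1; ring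
    have h2 : X ^ (θ - 1) ≤ κ ^ (θ - 1) := Real.rpow_le_rpow_of_nonpos hκ h (by linarith)
    have h3 : 0 ≤ κ ^ θ := Real.rpow_nonneg hκ.le _
    calc X ^ θ = X ^ (θ - 1) * X := h1
      _ ≤ κ ^ (θ - 1) * X := mul_le_mul_of_nonneg_right h2 hX
      _ ≤ _ := by linarith
  · have h1 : X ^ θ ≤ κ ^ θ := Real.rpow_le_rpow hX h hθ0
    have h2 : 0 ≤ κ ^ (θ - 1) * X := mul_nonneg (Real.rpow_nonneg hκ.le _) hX
    linarith

/-- The square of the cap of CB4. -/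
def cbT (δ e M W κ : ℝ) : ℝ :=
  (δ ^ 2 * (W ^ 2 * M ^ 3) ^ (2 * e)) ^ (1 / (1 + e)) * κ ^ (-(2 * e / (1 + e)))

/-- The error of CB4. -/
def cbErr (δ e M W κ : ℝ) : ℝ :=
  (δ ^ 2 * (W ^ 2 * M ^ 3) ^ (2 * e)) ^ (1 / (1 + e)) * κ ^ ((1 - e) / (1 + e))

theorem cbT_nonneg {δ e M W κ : ℝ} (hM : 0 ≤ M) (hκ : 0 ≤ κ) :
    0 ≤ cbT δ e M W κ := by unfold cbT; positivity

theorem cbErr_nonneg {δ e M W κ : ℝ} (hM : 0 ≤ M) (hκ : 0 ≤ κ) :
    0 ≤ cbErr δ e M W κ := by unfold cbErr; positivity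

/-- `cbErr = κ cbT`. -/
theorem cbErr_eq {δ e M W κ : ℝ} (he0 : 0 ≤ e) (hκ : 0 < κ) :
    cbErr δ e M W κ = cbT δ e M W κ * κ := by
  unfold cbErr cbT
  rw [mul_assoc, ← Real.rpow_add_one hκ.ne']
  congr 2
  field_simp
  ring

/-- **CB4**, one center `c`, linear form. -/
theorem cb4_center {δ e M W κ : ℝ} (hδ : 0 ≤ δ) (he0 : 0 ≤ e) (he1 : e ≤ 1) (hM : 0 ≤ M)
    (hW : 0 ≤ W) (hκ : 0 < κ) {A B C : Finset ℤ} (hA : A.Nonempty) {G : ℤ × ℤ × ℤ → ℝ}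
    (hU : UnifBox δ e A B C G)
    (hG : ∀ x ∈ A, ∀ y ∈ B, ∀ z ∈ C, |G (x, y, z)| ≤ M) {c : ℤ} (hc : c ∈ B)
    (w : ℤ → ℤ → ℝ) (hw : ∀ y ∈ B, ∀ x ∈ A, |w y x| ≤ W) {n E : ℝ}
    (hn : (avg B fun y => avg A fun x => w y x ^ 2) ≤ n)
    (hE : (avg A fun x => avg C fun z => G (x, c, z) ^ 2) ≤ E) :
    (avg B fun y => avg C fun z =>
      (avg A fun x => w y x * (G (x, y, z) * G (x, c, z))) ^ 2) ≤
      cbT δ e M W κ * (n * E) + cbErr δ e M W κ := by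
  set P : ℝ := avg B fun y => avg C fun z =>
      (avg A fun x => w y x * (G (x, y, z) * G (x, c, z))) ^ 2 with hP
  have hP0 : 0 ≤ P := avg_nonneg fun _ _ => avg_nonneg fun _ _ => sq_nonneg _
  have hn0 : 0 ≤ n := (avg_nonneg fun _ _ => avg_nonneg fun _ _ => sq_nonneg _).trans hn
  have hE0 : 0 ≤ E := (avg_nonneg fun _ _ => avg_nonneg fun _ _ => sq_nonneg _).trans hE
  have key := cb4_center_pow hδ he0 he1 hM hW hA hU hG hc w hw hn hE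
  rw [← hP] at key
  have h1e : 0 < 1 + e := by linarith
  have h1 : P = (P ^ (1 + e)) ^ (1 / (1 + e)) := by
    rw [← Real.rpow_mul hP0, mul_one_div_cancel h1e.ne', Real.rpow_one]
  have hnE : 0 ≤ n * E := mul_nonneg hn0 hE0
  have h2 : P ≤ (δ ^ 2 * (n * E) ^ (1 - e) * (W ^ 2 * M ^ 3) ^ (2 * e)) ^ (1 / (1 + e)) := by
    rw [h1]
    exact Real.rpow_le_rpow (Real.rpow_nonneg hP0 _) key (by positivity)
  have h3 : (δ ^ 2 * (n * E) ^ (1 - e) * (W ^ 2 * M ^ 3) ^ (2 * e)) ^ (1 / (1 + e)) =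
      (δ ^ 2 * (W ^ 2 * M ^ 3) ^ (2 * e)) ^ (1 / (1 + e)) * (n * E) ^ ((1 - e) / (1 + e)) := by
    have : δ ^ 2 * (n * E) ^ (1 - e) * (W ^ 2 * M ^ 3) ^ (2 * e) =
        (δ ^ 2 * (W ^ 2 * M ^ 3) ^ (2 * e)) * (n * E) ^ (1 - e) := by ring
    rw [this, Real.mul_rpow (by positivity) (by positivity), ← Real.rpow_mul hnE]
    congr 2; ring
  rw [h3] at h2
  have hθ0 : 0 ≤ (1 - e) / (1 + e) := div_nonneg (by linarith) h1e.le
  have hθ1 : (1 - e) / (1 + e) ≤ 1 := by rw [div_le_one h1e]; linarith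
  have h4 := rpow_le_lin hnE hκ hθ0 hθ1
  have h5 : (1 - e) / (1 + e) - 1 = -(2 * e / (1 + e)) := by field_simp; ring
  rw [h5] at h4
  have hD : 0 ≤ (δ ^ 2 * (W ^ 2 * M ^ 3) ^ (2 * e)) ^ (1 / (1 + e)) := by positivity
  calc P ≤ _ := h2
    _ ≤ (δ ^ 2 * (W ^ 2 * M ^ 3) ^ (2 * e)) ^ (1 / (1 + e)) *
        (κ ^ (-(2 * e / (1 + e))) * (n * E) + κ ^ ((1 - e) / (1 + e))) :=
        mul_le_mul_of_nonneg_left h4 hD
    _ = _ := by unfold cbT cbErr; ring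

/-- **CB4**, averaged over the centers: the fourth Schatten power. -/
theorem cb4 {δ e M W κ : ℝ} (hδ : 0 ≤ δ) (he0 : 0 ≤ e) (he1 : e ≤ 1) (hM : 0 ≤ M)
    (hW : 0 ≤ W) (hκ : 0 < κ) {A B C : Finset ℤ} (hA : A.Nonempty) (hB : B.Nonempty)
    {G : ℤ × ℤ × ℤ → ℝ} (hU : UnifBox δ e A B C G)
    (hG : ∀ x ∈ A, ∀ y ∈ B, ∀ z ∈ C, |G (x, y, z)| ≤ M)
    (w : ℤ → ℤ → ℤ → ℝ) (hw : ∀ c ∈ B, ∀ y ∈ B, ∀ x ∈ A, |w c y x| ≤ W) :
    (avg B fun c => avg B fun y => avg C fun z =>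
      (avg A fun x => w c y x * (G (x, y, z) * G (x, c, z))) ^ 2) ≤
      cbT δ e M W κ * (avg B fun c => (avg B fun y => avg A fun x => w c y x ^ 2) *
        (avg A fun x => avg C fun z => G (x, c, z) ^ 2)) + cbErr δ e M W κ := by
  calc _ ≤ avg B (fun c => cbT δ e M W κ * ((avg B fun y => avg A fun x => w c y x ^ 2) *
        (avg A fun x => avg C fun z => G (x, c, z) ^ 2)) + cbErr δ e M W κ) :=
        avg_mono fun c hc => cb4_center hδ he0 he1 hM hW hκ hA hU hG hc (w c) (hw c hc) le_rfl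
          le_rfl
    _ = _ := by rw [avg_add, avg_mul_left, avg_const hB]

end

end Vale.Agent.P141.H769
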