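import Vale.Agent.P141.H550.Caps
import Vale.Agent.P141.H769.Cb4

/-!
# P141, line W: MOM, averaged Schatten moments of gauged slices

`G` is `δ`-uniform on a box `A × B × C` (edge weights `Nm e`).  For one gauge edge `a x y` put
`M z x y = a x y * G (x, y, z)`.  With normalised sums

* `S2 = avg_z |M z|_HS ^ 2`, `S4 = avg_z |M z|_{S4} ^ 4`, `S6 = avg_z |M z|_{S6} ^ 6`

one has `S4 ^ (1+e) ≤ δ² Nm(a)² K^(6e) S2 ^ (1-e)` and `S6 ^ (1+e) ≤ δ² Nm(a)² K^(10e) S4 ^ (1-e)`,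
`K` a bound for `|M|`.  No exceptional slices, no singular vectors.
-/

namespace Vale.Agent.P141.H769

noncomputable section

open scoped BigOperators
open Vale.Agent.P141.PL.H315 Vale.Agent.P141.H315 Vale.Agent.P141.H550

/-- Power means of a product. -/
theorem avg_rpow_mul_le {X : Type*} {Q : Finset X} (hQ : Q.Nonempty) {f g : X → ℝ}
    (hf : ∀ x ∈ Q, 0 ≤ f x) (hg : ∀ x ∈ Q, 0 ≤ g x) {α : ℝ} (h0 : 0 ≤ α) (h1 : 2 * α ≤ 1) :
    avg Q (fun x => f x ^ α * g x ^ α) ≤ avg Q f ^ α * avg Q g ^ α := by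
  have key : ∀ h : X → ℝ, (∀ x ∈ Q, 0 ≤ h x) →
      Real.sqrt (avg Q fun x => (h x ^ α) ^ 2) ≤ avg Q h ^ α := by
    intro h hh
    have e1 : ∀ x ∈ Q, (h x ^ α) ^ 2 = h x ^ (2 * α) := by
      intro x hx
      rw [← Real.rpow_natCast, ← Real.rpow_mul (hh x hx)]
      congr 1; push_cast; ring
    rw [avg_congr e1]
    have h2 := avg_rpow_le hQ hh (θ := 2 * α) (by linarith) h1
    have h3 : avg Q h ^ α = Real.sqrt (avg Q h ^ (2 * α)) := by
      have h4 : avg Q h ^ (2 * α) = (avg Q h ^ α) ^ 2 := by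
        rw [← Real.rpow_natCast, ← Real.rpow_mul (avg_nonneg hh)]
        congr 1; push_cast; ring
      rw [h4, Real.sqrt_sq (Real.rpow_nonneg (avg_nonneg hh) _)]
    rw [h3]
    exact Real.sqrt_le_sqrt h2
  refine (avg_mul_le_sqrt Q _ _).trans ?_
  exact mul_le_mul (key f hf) (key g hg) (Real.sqrt_nonneg _)
    (Real.rpow_nonneg (avg_nonneg hf) _)

/-- the gauged slice -/
def sl (a : ℤ → ℤ → ℝ) (G : ℤ × ℤ × ℤ → ℝ) (z x y : ℤ) : ℝ := a x y * G (x, y, z)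

/-- **The bilinear test lemma**: `avg_z ⟨M z, P z N z⟩` for `M z = a G^z`. -/
theorem bil {δ e : ℝ} (hδ : 0 ≤ δ) (he0 : 0 ≤ e) (he1 : e ≤ 1) {A B C D : Finset ℤ}
    (hD : D.Nonempty) {G : ℤ × ℤ × ℤ → ℝ} (hU : UnifBox δ e A B C G) (a : ℤ → ℤ → ℝ)
    (P N : ℤ → ℤ → ℤ → ℝ) {p n : ℝ} (hp : 0 ≤ p) (hn : 0 ≤ n)
    (hP : ∀ z ∈ C, ∀ x ∈ A, ∀ c ∈ D, |P z x c| ≤ p)
    (hN : ∀ z ∈ C, ∀ c ∈ D, ∀ y ∈ B, |N z c y| ≤ n) :
    (avg C fun z => avg A fun x => avg B fun y =>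
      sl a G z x y * avg D fun c => P z x c * N z c y) ≤
      δ * (Nm e (A ×ˢ B) (fun r => a r.1 r.2) * (p * n) ^ e) *
        ((avg C fun z => avg A fun x => avg D fun c => P z x c ^ 2) ^ ((1 - e) / 2) *
          (avg C fun z => avg D fun c => avg B fun y => N z c y ^ 2) ^ ((1 - e) / 2)) := by
  classical
  let u12 : ℤ × ℤ → ℝ := fun r => a r.1 r.2
  let u13 : ℤ → ℤ × ℤ → ℝ := fun c r => P r.2 r.1 c
  let u23 : ℤ → ℤ × ℤ → ℝ := fun c r => N r.2 c r.1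
  set Pc : ℤ → ℝ := fun c => avg A fun x => avg C fun z => P z x c ^ 2 with hPc
  set Nc : ℤ → ℝ := fun c => avg B fun y => avg C fun z => N z c y ^ 2 with hNc
  have hPc0 : ∀ c, 0 ≤ Pc c := fun c => avg_nonneg fun _ _ => avg_nonneg fun _ _ => sq_nonneg _
  have hNc0 : ∀ c, 0 ≤ Nc c := fun c => avg_nonneg fun _ _ => avg_nonneg fun _ _ => sq_nonneg _
  have e0 : (avg C fun z => avg A fun x => avg B fun y =>
      sl a G z x y * avg D fun c => P z x c * N z c y) =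
      avg D fun c => avg (A ×ˢ B ×ˢ C) fun q => G q * atm (u12, u13 c, u23 c) q := by
    have e1 : ∀ c ∈ D, (avg (A ×ˢ B ×ˢ C) fun q => G q * atm (u12, u13 c, u23 c) q) =
        avg A fun x => avg B fun y => avg C fun z => G (x, y, z) * (a x y * P z x c * N z c y) := by
      intro c _
      rw [avg_prod]
      refine avg_congr fun x _ => ?_
      rw [avg_prod]
      rfl
    rw [avg_congr e1]
    have e2 : (avg C fun z => avg A fun x => avg B fun y =>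
        sl a G z x y * avg D fun c => P z x c * N z c y) =
        avg C fun z => avg A fun x => avg B fun y => avg D fun c =>
          G (x, y, z) * (a x y * P z x c * N z c y) := by
      refine avg_congr fun z _ => avg_congr fun x _ => avg_congr fun y _ => ?_
      rw [← avg_mul_left]
      refine avg_congr fun c _ => ?_
      unfold sl; ring
    rw [e2, avg_comm C A]
    rw [avg_comm D A]
    refine avg_congr fun x _ => ?_
    rw [avg_comm C B, avg_comm D B]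
    refine avg_congr fun y _ => ?_
    rw [avg_comm C D]
  rw [e0]
  have h1 : ∀ c ∈ D, (avg (A ×ˢ B ×ˢ C) fun q => G q * atm (u12, u13 c, u23 c) q) ≤
      δ * (Nm e (A ×ˢ B) u12 * (p * n) ^ e) * (Pc c ^ ((1 - e) / 2) * Nc c ^ ((1 - e) / 2)) := by
    intro c hc
    have hN13 : Nm e (A ×ˢ C) (u13 c) ≤ Pc c ^ ((1 - e) / 2) * p ^ e := by
      refine Nm_le he0 he1 hp ?_ ?_
      · rw [avg_prod]
      · rintro ⟨x, z⟩ hq
        rw [Finset.mem_product] at hq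
        exact hP z hq.2 x hq.1 c hc
    have hN23 : Nm e (B ×ˢ C) (u23 c) ≤ Nc c ^ ((1 - e) / 2) * n ^ e := by
      refine Nm_le he0 he1 hn ?_ ?_
      · rw [avg_prod]
      · rintro ⟨y, z⟩ hq
        rw [Finset.mem_product] at hq
        exact hN z hq.2 c hc y hq.1
    refine (le_abs_self _).trans ((hU (u12, u13 c, u23 c)).trans ?_)
    have p1 := Nm_nonneg e (A ×ˢ B) u12
    have p2 := Nm_nonneg e (A ×ˢ C) (u13 c)
    have p3 := Nm_nonneg e (B ×ˢ C) (u23 c)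
    calc δ * (Nm e (A ×ˢ B) u12 * Nm e (A ×ˢ C) (u13 c) * Nm e (B ×ˢ C) (u23 c)) ≤
        δ * (Nm e (A ×ˢ B) u12 * (Pc c ^ ((1 - e) / 2) * p ^ e) *
          (Nc c ^ ((1 - e) / 2) * n ^ e)) := by
          refine mul_le_mul_of_nonneg_left ?_ hδ
          exact mul_le_mul (mul_le_mul_of_nonneg_left hN13 p1) hN23 p3
            (mul_nonneg p1 (p2.trans hN13))
      _ = _ := by rw [Real.mul_rpow hp hn]; ring
  refine (avg_mono h1).trans ?_
  rw [avg_mul_left]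
  have hc0 : 0 ≤ δ * (Nm e (A ×ˢ B) u12 * (p * n) ^ e) :=
    mul_nonneg hδ (mul_nonneg (Nm_nonneg _ _ _) (Real.rpow_nonneg (mul_nonneg hp hn) _))
  refine mul_le_mul_of_nonneg_left ?_ hc0
  refine (avg_rpow_mul_le hD (fun c _ => hPc0 c) (fun c _ => hNc0 c) (by linarith)
    (by linarith)).trans (le_of_eq ?_)
  have q1 : avg D Pc = avg C fun z => avg A fun x => avg D fun c => P z x c ^ 2 := by
    simp only [hPc]
    rw [avg_comm D A, avg_comm C A]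
    refine avg_congr fun x _ => ?_
    rw [avg_comm D C]
  have q2 : avg D Nc = avg C fun z => avg D fun c => avg B fun y => N z c y ^ 2 := by
    simp only [hNc]
    rw [avg_comm C D]
    refine avg_congr fun c _ => ?_
    rw [avg_comm B C]
  rw [q1, q2]

/-- normalised Gram matrix of the rows -/
def g2 (B : Finset ℤ) (M : ℤ → ℤ → ℝ) (x c : ℤ) : ℝ := avg B fun y => M x y * M c y

/-- `M Mᵀ M` -/
def g3 (A B : Finset ℤ) (M : ℤ → ℤ → ℝ) (x y : ℤ) : ℝ := avg A fun c => g2 B M x c * M c y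

theorem g2_symm (B : Finset ℤ) (M : ℤ → ℤ → ℝ) (x c : ℤ) : g2 B M x c = g2 B M c x := by
  unfold g2
  exact avg_congr fun y _ => by ring

/-- `|M|_{S4}^4 = ⟨M, M Mᵀ M⟩`. -/
theorem s4_eq (A B : Finset ℤ) (M : ℤ → ℤ → ℝ) :
    (avg A fun x => avg A fun c => g2 B M x c ^ 2) =
      avg A fun x => avg B fun y => M x y * avg A fun c => g2 B M x c * M c y := by
  refine avg_congr fun x _ => ?_
  have e1 : ∀ y ∈ B, (M x y * avg A fun c => g2 B M x c * M c y) =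
      avg A fun c => g2 B M x c * (M x y * M c y) := by
    intro y _
    rw [← avg_mul_left]
    exact avg_congr fun c _ => by ring
  rw [avg_congr e1, avg_comm]
  refine avg_congr fun c _ => ?_
  rw [avg_mul_left]
  show g2 B M x c ^ 2 = g2 B M x c * g2 B M x c
  ring

/-- `|M|_{S6}^6 = ⟨M, M Mᵀ (M Mᵀ M)⟩`. -/
theorem s6_eq (A B : Finset ℤ) (M : ℤ → ℤ → ℝ) :
    (avg A fun x => avg B fun y => g3 A B M x y ^ 2) =
      avg A fun x => avg B fun y => M x y * avg A fun c => g2 B M x c * g3 A B M c y := by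
  have e1 : (avg A fun x => avg B fun y => g3 A B M x y ^ 2) =
      avg A fun x => avg A fun c => avg B fun y => g3 A B M x y * (g2 B M x c * M c y) := by
    refine avg_congr fun x _ => ?_
    rw [avg_comm A B]
    refine avg_congr fun y _ => ?_
    rw [avg_mul_left]
    show g3 A B M x y ^ 2 = g3 A B M x y * g3 A B M x y
    ring
  have e2 : (avg A fun x => avg B fun y => M x y * avg A fun c => g2 B M x c * g3 A B M c y) =
      avg A fun x => avg A fun c => avg B fun y => M x y * (g2 B M x c * g3 A B M c y) := by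
    refine avg_congr fun x _ => ?_
    rw [avg_comm A B]
    refine avg_congr fun y _ => ?_
    rw [avg_mul_left]
  rw [e1, e2, avg_comm A A]
  refine avg_congr fun c _ => avg_congr fun x _ => avg_congr fun y _ => ?_
  rw [g2_symm B M x c]
  ring

theorem abs_g2_le {A B : Finset ℤ} (hB : B.Nonempty) {M : ℤ → ℤ → ℝ} {K : ℝ} (hK : 0 ≤ K)
    (hM : ∀ x ∈ A, ∀ y ∈ B, |M x y| ≤ K) {x c : ℤ} (hx : x ∈ A) (hc : c ∈ A) :
    |g2 B M x c| ≤ K ^ 2 := by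
  refine abs_avg_le_of hB fun y hy => ?_
  rw [abs_mul]
  calc |M x y| * |M c y| ≤ K * K :=
        mul_le_mul (hM x hx y hy) (hM c hc y hy) (abs_nonneg _) hK
    _ = K ^ 2 := by ring

theorem abs_g3_le {A B : Finset ℤ} (hA : A.Nonempty) (hB : B.Nonempty) {M : ℤ → ℤ → ℝ} {K : ℝ}
    (hK : 0 ≤ K) (hM : ∀ x ∈ A, ∀ y ∈ B, |M x y| ≤ K) {x y : ℤ} (hx : x ∈ A) (hy : y ∈ B) :
    |g3 A B M x y| ≤ K ^ 3 := by
  refine abs_avg_le_of hA fun c hc => ?_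
  rw [abs_mul]
  calc |g2 B M x c| * |M c y| ≤ K ^ 2 * K :=
        mul_le_mul (abs_g2_le hB hK hM hx hc) (hM c hc y hy) (abs_nonneg _) (by positivity)
    _ = K ^ 3 := by ring

/-- Self improvement. -/
theorem self_pow {X Z e : ℝ} (hX : 0 ≤ X) (he0 : 0 ≤ e)
    (h : X ≤ Z * X ^ ((1 - e) / 2)) : X ^ (1 + e) ≤ Z ^ 2 := by
  rcases hX.eq_or_lt with h0 | hpos
  · rw [← h0, Real.zero_rpow (by linarith)]; positivity
  have hq : 0 < X ^ ((1 - e) / 2) := Real.rpow_pos_of_pos hpos _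
  have key : X ^ ((1 + e) / 2) ≤ Z := by
    have h1 : X = X ^ ((1 + e) / 2) * X ^ ((1 - e) / 2) := by
      rw [← Real.rpow_add hpos]
      have : (1 + e) / 2 + (1 - e) / 2 = 1 := by ring
      rw [this, Real.rpow_one]
    have h2 : X ^ ((1 + e) / 2) * X ^ ((1 - e) / 2) ≤ Z * X ^ ((1 - e) / 2) := by
      rw [← h1]; exact h
    exact le_of_mul_le_mul_right h2 hq
  have h3 : X ^ (1 + e) = (X ^ ((1 + e) / 2)) ^ 2 := by
    rw [← Real.rpow_natCast, ← Real.rpow_mul hX]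
    congr 1; push_cast; ring
  rw [h3]
  exact pow_le_pow_left₀ (Real.rpow_nonneg hX _) key 2

/-- The three moments (normalised, averaged over `z ∈ C`). -/
def mo2 (A B C : Finset ℤ) (a : ℤ → ℤ → ℝ) (G : ℤ × ℤ × ℤ → ℝ) : ℝ :=
  avg C fun z => avg A fun x => avg B fun y => sl a G z x y ^ 2

def mo4 (A B C : Finset ℤ) (a : ℤ → ℤ → ℝ) (G : ℤ × ℤ × ℤ → ℝ) : ℝ :=
  avg C fun z => avg A fun x => avg A fun c => g2 B (sl a G z) x c ^ 2

def mo6 (A B C : Finset ℤ) (a : ℤ → ℤ → ℝ) (G : ℤ × ℤ × ℤ → ℝ) : ℝ :=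
  avg C fun z => avg A fun x => avg B fun y => g3 A B (sl a G z) x y ^ 2

theorem mo2_nonneg (A B C : Finset ℤ) (a : ℤ → ℤ → ℝ) (G : ℤ × ℤ × ℤ → ℝ) :
    0 ≤ mo2 A B C a G :=
  avg_nonneg fun _ _ => avg_nonneg fun _ _ => avg_nonneg fun _ _ => sq_nonneg _

theorem mo4_nonneg (A B C : Finset ℤ) (a : ℤ → ℤ → ℝ) (G : ℤ × ℤ × ℤ → ℝ) :
    0 ≤ mo4 A B C a G :=
  avg_nonneg fun _ _ => avg_nonneg fun _ _ => avg_nonneg fun _ _ => sq_nonneg _

theorem mo6_nonneg (A B C : Finset ℤ) (a : ℤ → ℤ → ℝ) (G : ℤ × ℤ × ℤ → ℝ) :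
    0 ≤ mo6 A B C a G :=
  avg_nonneg fun _ _ => avg_nonneg fun _ _ => avg_nonneg fun _ _ => sq_nonneg _

/-- **MOM4**: the averaged fourth moment of the gauged slices. -/
theorem mom4 {δ e K : ℝ} (hδ : 0 ≤ δ) (he0 : 0 ≤ e) (he1 : e ≤ 1) (hK : 0 ≤ K)
    {A B C : Finset ℤ} (hA : A.Nonempty) (hB : B.Nonempty) {G : ℤ × ℤ × ℤ → ℝ}
    (hU : UnifBox δ e A B C G) (a : ℤ → ℤ → ℝ)
    (hM : ∀ z ∈ C, ∀ x ∈ A, ∀ y ∈ B, |sl a G z x y| ≤ K) :
    mo4 A B C a G ^ (1 + e) ≤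
      δ ^ 2 * Nm e (A ×ˢ B) (fun r => a r.1 r.2) ^ 2 * (K ^ 3) ^ (2 * e) *
        mo2 A B C a G ^ (1 - e) := by
  set Y := mo2 A B C a G with hY
  have hY0 : 0 ≤ Y := mo2_nonneg ..
  have hX0 := mo4_nonneg A B C a G
  have h1 : mo4 A B C a G ≤ (δ * (Nm e (A ×ˢ B) (fun r => a r.1 r.2) * (K ^ 2 * K) ^ e) *
      Y ^ ((1 - e) / 2)) * mo4 A B C a G ^ ((1 - e) / 2) := by
    have h2 := bil hδ he0 he1 (D := A) hA hU a (fun z x c => g2 B (sl a G z) x c)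
      (fun z c y => sl a G z c y) (p := K ^ 2) (n := K) (by positivity) hK
      (fun z hz x hx c hc => abs_g2_le hB hK (hM z hz) hx hc)
      (fun z hz c hc y hy => hM z hz c hc y hy)
    have h3 : mo4 A B C a G = avg C fun z => avg A fun x => avg B fun y =>
        sl a G z x y * avg A fun c => g2 B (sl a G z) x c * sl a G z c y :=
      avg_congr fun z _ => s4_eq A B (sl a G z)
    rw [← h3] at h2
    refine h2.trans (le_of_eq ?_)
    show δ * (Nm e (A ×ˢ B) (fun r => a r.1 r.2) * (K ^ 2 * K) ^ e) *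
      (mo4 A B C a G ^ ((1 - e) / 2) * Y ^ ((1 - e) / 2)) = _
    ring
  refine (self_pow hX0 he0 h1).trans (le_of_eq ?_)
  have e1 : (Y ^ ((1 - e) / 2)) ^ 2 = Y ^ (1 - e) := by
    rw [← Real.rpow_natCast, ← Real.rpow_mul hY0]
    congr 1; push_cast; ring
  have e2 : ((K ^ 3) ^ e) ^ 2 = (K ^ 3) ^ (2 * e) := by
    rw [← Real.rpow_natCast, ← Real.rpow_mul (by positivity)]
    congr 1; push_cast; ring
  rw [← e1, ← e2, show K ^ 2 * K = K ^ 3 by ring]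
  ring

/-- **MOM6**: the averaged sixth moment of the gauged slices. -/
theorem mom6 {δ e K : ℝ} (hδ : 0 ≤ δ) (he0 : 0 ≤ e) (he1 : e ≤ 1) (hK : 0 ≤ K)
    {A B C : Finset ℤ} (hA : A.Nonempty) (hB : B.Nonempty) {G : ℤ × ℤ × ℤ → ℝ}
    (hU : UnifBox δ e A B C G) (a : ℤ → ℤ → ℝ)
    (hM : ∀ z ∈ C, ∀ x ∈ A, ∀ y ∈ B, |sl a G z x y| ≤ K) :
    mo6 A B C a G ^ (1 + e) ≤
      δ ^ 2 * Nm e (A ×ˢ B) (fun r => a r.1 r.2) ^ 2 * (K ^ 5) ^ (2 * e) *
        mo4 A B C a G ^ (1 - e) := by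
  set Y := mo4 A B C a G with hY
  have hY0 : 0 ≤ Y := mo4_nonneg ..
  have hX0 := mo6_nonneg A B C a G
  have h1 : mo6 A B C a G ≤ (δ * (Nm e (A ×ˢ B) (fun r => a r.1 r.2) * (K ^ 2 * K ^ 3) ^ e) *
      Y ^ ((1 - e) / 2)) * mo6 A B C a G ^ ((1 - e) / 2) := by
    have h2 := bil hδ he0 he1 (D := A) hA hU a (fun z x c => g2 B (sl a G z) x c)
      (fun z c y => g3 A B (sl a G z) c y) (p := K ^ 2) (n := K ^ 3) (by positivity)
      (by positivity)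
      (fun z hz x hx c hc => abs_g2_le hB hK (hM z hz) hx hc)
      (fun z hz c hc y hy => abs_g3_le hA hB hK (hM z hz) hc hy)
    have h3 : mo6 A B C a G = avg C fun z => avg A fun x => avg B fun y =>
        sl a G z x y * avg A fun c => g2 B (sl a G z) x c * g3 A B (sl a G z) c y :=
      avg_congr fun z _ => s6_eq A B (sl a G z)
    rw [← h3] at h2
    refine h2.trans (le_of_eq ?_)
    show δ * (Nm e (A ×ˢ B) (fun r => a r.1 r.2) * (K ^ 2 * K ^ 3) ^ e) *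
      (Y ^ ((1 - e) / 2) * mo6 A B C a G ^ ((1 - e) / 2)) = _
    ring
  refine (self_pow hX0 he0 h1).trans (le_of_eq ?_)
  have e1 : (Y ^ ((1 - e) / 2)) ^ 2 = Y ^ (1 - e) := by
    rw [← Real.rpow_natCast, ← Real.rpow_mul hY0]
    congr 1; push_cast; ring
  have e2 : ((K ^ 5) ^ e) ^ 2 = (K ^ 5) ^ (2 * e) := by
    rw [← Real.rpow_natCast, ← Real.rpow_mul (by positivity)]
    congr 1; push_cast; ring
  rw [← e1, ← e2, show K ^ 2 * K ^ 3 = K ^ 5 by ring]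
  ring

/-- The square of the cap of MOM. -/
def mT (δ e L κ : ℝ) : ℝ := (δ ^ 2 * L ^ (2 * e)) ^ (1 / (1 + e)) * κ ^ (-(2 * e / (1 + e)))

theorem mT_nonneg {δ e L κ : ℝ} (hL : 0 ≤ L) (hκ : 0 ≤ κ) : 0 ≤ mT δ e L κ := by
  unfold mT; positivity

/-- From the power form to the linear form. -/
theorem lin_of_pow {X n Y δ e L κ : ℝ} (hX : 0 ≤ X) (hn : 0 ≤ n) (hY : 0 ≤ Y) (hL : 0 ≤ L)
    (he0 : 0 ≤ e) (he1 : e ≤ 1) (hκ : 0 < κ)
    (h : X ^ (1 + e) ≤ δ ^ 2 * L ^ (2 * e) * (n * Y) ^ (1 - e)) :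
    X ≤ mT δ e L κ * (n * Y + κ) := by
  have h1e : 0 < 1 + e := by linarith
  have hnE : 0 ≤ n * Y := mul_nonneg hn hY
  have h1 : X = (X ^ (1 + e)) ^ (1 / (1 + e)) := by
    rw [← Real.rpow_mul hX, mul_one_div_cancel h1e.ne', Real.rpow_one]
  have h2 : X ≤ (δ ^ 2 * L ^ (2 * e) * (n * Y) ^ (1 - e)) ^ (1 / (1 + e)) := by
    rw [h1]
    exact Real.rpow_le_rpow (Real.rpow_nonneg hX _) h (by positivity)
  have h3 : (δ ^ 2 * L ^ (2 * e) * (n * Y) ^ (1 - e)) ^ (1 / (1 + e)) =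
      (δ ^ 2 * L ^ (2 * e)) ^ (1 / (1 + e)) * (n * Y) ^ ((1 - e) / (1 + e)) := by
    rw [Real.mul_rpow (by positivity) (by positivity), ← Real.rpow_mul hnE]
    congr 2; ring
  rw [h3] at h2
  have hθ0 : 0 ≤ (1 - e) / (1 + e) := div_nonneg (by linarith) h1e.le
  have hθ1 : (1 - e) / (1 + e) ≤ 1 := by rw [div_le_one h1e]; linarith
  have h4 := rpow_le_lin hnE hκ hθ0 hθ1
  have h5 : (1 - e) / (1 + e) - 1 = -(2 * e / (1 + e)) := by field_simp; ring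
  rw [h5] at h4
  have h6 : κ ^ ((1 - e) / (1 + e)) = κ ^ (-(2 * e / (1 + e))) * κ := by
    rw [← Real.rpow_add_one hκ.ne', ← h5]
    congr 1; ring
  rw [h6] at h4
  have hD : 0 ≤ (δ ^ 2 * L ^ (2 * e)) ^ (1 / (1 + e)) := by positivity
  calc X ≤ _ := h2
    _ ≤ (δ ^ 2 * L ^ (2 * e)) ^ (1 / (1 + e)) *
        (κ ^ (-(2 * e / (1 + e))) * (n * Y) + κ ^ (-(2 * e / (1 + e))) * κ) :=
        mul_le_mul_of_nonneg_left h4 hD
    _ = _ := by unfold mT; ring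

/-- The gauge through its square average and a sup bound. -/
theorem Nm_sq_le {X : Type*} {e : ℝ} (he0 : 0 ≤ e) (he1 : e ≤ 1) {Q : Finset X} {f : X → ℝ}
    {n w : ℝ} (hw : 0 ≤ w) (hn : avg Q (fun x => f x ^ 2) ≤ n) (hf : ∀ x ∈ Q, |f x| ≤ w) :
    Nm e Q f ^ 2 ≤ n ^ (1 - e) * w ^ (2 * e) := by
  have hn0 : 0 ≤ n := (avg_nonneg fun _ _ => sq_nonneg _).trans hn
  have h1 := Nm_le he0 he1 hw hn hf
  refine (pow_le_pow_left₀ (Nm_nonneg _ _ _) h1 2).trans (le_of_eq ?_)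
  have e1 : (n ^ ((1 - e) / 2)) ^ 2 = n ^ (1 - e) := by
    rw [← Real.rpow_natCast, ← Real.rpow_mul hn0]
    congr 1; push_cast; ring
  have e2 : (w ^ e) ^ 2 = w ^ (2 * e) := by
    rw [← Real.rpow_natCast, ← Real.rpow_mul hw]
    congr 1; push_cast; ring
  rw [mul_pow, e1, e2]

/-- **MOM4**, linear form: `S4 ≤ mT (n S2 + κ)`, `n = avg a²`. -/
theorem mom4_lin {δ e K w n κ : ℝ} (hδ : 0 ≤ δ) (he0 : 0 ≤ e) (he1 : e ≤ 1) (hK : 0 ≤ K)
    (hw : 0 ≤ w) (hκ : 0 < κ)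
    {A B C : Finset ℤ} (hA : A.Nonempty) (hB : B.Nonempty) {G : ℤ × ℤ × ℤ → ℝ}
    (hU : UnifBox δ e A B C G) (a : ℤ → ℤ → ℝ)
    (ha : ∀ x ∈ A, ∀ y ∈ B, |a x y| ≤ w)
    (hn : (avg A fun x => avg B fun y => a x y ^ 2) ≤ n)
    (hM : ∀ z ∈ C, ∀ x ∈ A, ∀ y ∈ B, |sl a G z x y| ≤ K) :
    mo4 A B C a G ≤ mT δ e (w * K ^ 3) κ * (n * mo2 A B C a G + κ) := by
  have hn0 : 0 ≤ n := (avg_nonneg fun _ _ => avg_nonneg fun _ _ => sq_nonneg _).trans hn
  have hY0 := mo2_nonneg A B C a G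
  refine lin_of_pow (mo4_nonneg ..) hn0 hY0 (by positivity) he0 he1 hκ ?_
  have h1 := mom4 hδ he0 he1 hK hA hB hU a hM
  have h2 : Nm e (A ×ˢ B) (fun r => a r.1 r.2) ^ 2 ≤ n ^ (1 - e) * w ^ (2 * e) := by
    refine Nm_sq_le he0 he1 hw ?_ ?_
    · rw [avg_prod]; exact hn
    · rintro ⟨x, y⟩ hq
      rw [Finset.mem_product] at hq
      exact ha x hq.1 y hq.2
  refine h1.trans ?_
  rw [Real.mul_rpow hw (by positivity), Real.mul_rpow hn0 hY0]
  calc δ ^ 2 * Nm e (A ×ˢ B) (fun r => a r.1 r.2) ^ 2 * (K ^ 3) ^ (2 * e) *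
        mo2 A B C a G ^ (1 - e) ≤
      δ ^ 2 * (n ^ (1 - e) * w ^ (2 * e)) * (K ^ 3) ^ (2 * e) * mo2 A B C a G ^ (1 - e) := by
        have : 0 ≤ mo2 A B C a G ^ (1 - e) := Real.rpow_nonneg hY0 _
        gcongr
    _ = _ := by ring

/-- **MOM6**, linear form: `S6 ≤ mT (n S4 + κ)`. -/
theorem mom6_lin {δ e K w n κ : ℝ} (hδ : 0 ≤ δ) (he0 : 0 ≤ e) (he1 : e ≤ 1) (hK : 0 ≤ K)
    (hw : 0 ≤ w) (hκ : 0 < κ)
    {A B C : Finset ℤ} (hA : A.Nonempty) (hB : B.Nonempty) {G : ℤ × ℤ × ℤ → ℝ}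
    (hU : UnifBox δ e A B C G) (a : ℤ → ℤ → ℝ)
    (ha : ∀ x ∈ A, ∀ y ∈ B, |a x y| ≤ w)
    (hn : (avg A fun x => avg B fun y => a x y ^ 2) ≤ n)
    (hM : ∀ z ∈ C, ∀ x ∈ A, ∀ y ∈ B, |sl a G z x y| ≤ K) :
    mo6 A B C a G ≤ mT δ e (w * K ^ 5) κ * (n * mo4 A B C a G + κ) := by
  have hn0 : 0 ≤ n := (avg_nonneg fun _ _ => avg_nonneg fun _ _ => sq_nonneg _).trans hn
  have hY0 := mo4_nonneg A B C a G
  refine lin_of_pow (mo6_nonneg ..) hn0 hY0 (by positivity) he0 he1 hκ ?_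
  have h1 := mom6 hδ he0 he1 hK hA hB hU a hM
  have h2 : Nm e (A ×ˢ B) (fun r => a r.1 r.2) ^ 2 ≤ n ^ (1 - e) * w ^ (2 * e) := by
    refine Nm_sq_le he0 he1 hw ?_ ?_
    · rw [avg_prod]; exact hn
    · rintro ⟨x, y⟩ hq
      rw [Finset.mem_product] at hq
      exact ha x hq.1 y hq.2
  refine h1.trans ?_
  rw [Real.mul_rpow hw (by positivity), Real.mul_rpow hn0 hY0]
  calc δ ^ 2 * Nm e (A ×ˢ B) (fun r => a r.1 r.2) ^ 2 * (K ^ 5) ^ (2 * e) *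
        mo4 A B C a G ^ (1 - e) ≤
      δ ^ 2 * (n ^ (1 - e) * w ^ (2 * e)) * (K ^ 5) ^ (2 * e) * mo4 A B C a G ^ (1 - e) := by
        have : 0 ≤ mo4 A B C a G ^ (1 - e) := Real.rpow_nonneg hY0 _
        gcongr
    _ = _ := by ring

/-- The second moment of a lift-like function: all `z`-line averages of `G²` at most `Λ`. -/
theorem mo2_le {Λ n : ℝ} {A B C : Finset ℤ} {G : ℤ × ℤ × ℤ → ℝ} (a : ℤ → ℤ → ℝ)
    (hn : (avg A fun x => avg B fun y => a x y ^ 2) ≤ n) (hΛ : 0 ≤ Λ)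
    (hG : ∀ x ∈ A, ∀ y ∈ B, (avg C fun z => G (x, y, z) ^ 2) ≤ Λ) :
    mo2 A B C a G ≤ n * Λ := by
  unfold mo2
  rw [avg_comm C A]
  calc (avg A fun x => avg C fun z => avg B fun y => sl a G z x y ^ 2) ≤
      avg A fun x => (avg B fun y => a x y ^ 2) * Λ := by
        refine avg_mono fun x hx => ?_
        rw [avg_comm C B, ← avg_mul_right]
        refine avg_mono fun y hy => ?_
        have e1 : ∀ z ∈ C, sl a G z x y ^ 2 = a x y ^ 2 * G (x, y, z) ^ 2 := fun z _ => by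
          unfold sl; ring
        rw [avg_congr e1, avg_mul_left]
        exact mul_le_mul_of_nonneg_left (hG x hx y hy) (sq_nonneg _)
    _ = (avg A fun x => avg B fun y => a x y ^ 2) * Λ := avg_mul_right _ _ _
    _ ≤ n * Λ := mul_le_mul_of_nonneg_right hn hΛ

end

end Vale.Agent.P141.H769
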